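import Vale.Agent.P281.H191.HKT.Th
import Vale.Agent.P281.H191.HK.Pull2
import Vale.Agent.P281.H399.HKT.Lin

/-!
# P281, project T-HKT (helper125), P5: the transport of the rational radical by a diffeomorphism which
is compatible with the 1-forms
-/

open Set Filter Metric MeasureTheory Vale.Agent.P272.K
open scoped Topology ContDiff ComplexConjugate ComplexOrder

noncomputable section

namespace Vale.Agent.P281.H125.HKT

open Vale.Agent.P281.H64.TK Vale.Agent.P281.H64.TK.TS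
open Vale.Agent.P281.H83.HKT
open Vale.Agent.P281.H191.HKT (row1 thj_apply bl bT_eq bl_cl)

section
variable {a d : ℕ} {E Γ : Type} [TopologicalSpace E] [Group Γ] [MulAction Γ E]
  {E' Γ' : Type} [TopologicalSpace E'] [Group Γ'] [MulAction Γ' E']

/-- The rows of `u` are the pull-backs of the rows of `u'`. -/
def Row (S : Sheets d E Γ) (S' : Sheets d E' Γ') (τ : E → E')
    (u : Fin S.N → Cm d → Matrix (Fin a) (Fin d) ℂ)
    (u' : Fin S'.N → Cm d → Matrix (Fin a) (Fin d) ℂ) : Prop :=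
  ∀ i j, ∀ z ∈ ball (0 : Cm d) 3, ∀ z' ∈ ball (0 : Cm d) 3, ∀ ψ, Tr S S' τ i j z z' ψ →
    ∀ r v, row1 (u i z) r v = row1 (u' j z') r (fderiv ℝ ψ z v)

variable {S : Sheets d E Γ} {S' : Sheets d E' Γ'} {τ : E → E'}
  {u : Fin S.N → Cm d → Matrix (Fin a) (Fin d) ℂ}
  {u' : Fin S'.N → Cm d → Matrix (Fin a) (Fin d) ℂ}

theorem pull_thj (h : Row S S' τ u u') (r : Fin a) :
    Pull2 S S' τ (fun i z => thj (u i z) r) (fun i z => thj (u' i z) r) := by
  intro i j z hz z' hz' ψ hψ v w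
  have e := h i j z hz z' hz' ψ hψ r
  beta_reduce
  rw [thj_apply, thj_apply, e v, e w]

theorem pull_bl (h : Row S S' τ u u') {x y c : Fin S.N → Cm d → L2 d}
    {x' y' c' : Fin S'.N → Cm d → L2 d} (hx : Pull2 S S' τ x x') (hy : Pull2 S S' τ y y')
    (hc : Pull2 S S' τ c c') (l : Fin d) : Pull2 S S' τ (bl u x y c l) (bl u' x' y' c' l) := by
  unfold bl
  split_ifs
  · exact hx
  · exact hy
  · exact pull_thj h _
  · exact hc

end

section
variable {a d : ℕ} {E Γ : Type} [TopologicalSpace E] [T2Space E] [Group Γ] [Subsingleton Γ]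
  [MulAction Γ E] [ContinuousConstSMul Γ E]
  {E' Γ' : Type} [TopologicalSpace E'] [T2Space E'] [Group Γ'] [Subsingleton Γ']
  [MulAction Γ' E'] [ContinuousConstSMul Γ' E']
  {S : Sheets d E Γ} {S' : Sheets d E' Γ'} {τ : E ≃ₜ E'}
  {u : Fin S.N → Cm d → Matrix (Fin a) (Fin d) ℂ}
  {u' : Fin S'.N → Cm d → Matrix (Fin a) (Fin d) ℂ}

/-- The change of variables in `bT`. -/
theorem bT_pull (h0 : 0 < d) (hτ : Dif S S' τ) (hu : Hol1 S u) (hu' : Hol1 S' u')
    (h : Row S S' τ u u') {x y c : Fin S.N → Cm d → L2 d} {x' y' c' : Fin S'.N → Cm d → L2 d}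
    (hx : Cl2 S x) (hy : Cl2 S y) (hc : Cl2 S c) (hx' : Cl2 S' x') (hy' : Cl2 S' y')
    (hc' : Cl2 S' c') (px : Pull2 S S' τ x x') (py : Pull2 S S' τ y y')
    (pc : Pull2 S S' τ c c') : bT S u x y c = bT S' u' x' y' c' := by
  rw [bT_eq, bT_eq]
  exact H864.HK.wint_pull h0 hτ (bl_cl hu hx hy hc) (bl_cl hu' hx' hy' hc') (pull_bl h px py pc)

/-- **The transport of the rational radical.** -/
theorem ratRad_of (h0 : 0 < d) (hτ : Dif S S' τ) (hu : Hol1 S u) (hu' : Hol1 S' u')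
    (h : Row S S' τ u u') {c : Fin S.N → Cm d → L2 d} {c' : Fin S'.N → Cm d → L2 d}
    (hc : Cl2 S c) (hc' : Cl2 S' c') (pc : Pull2 S S' τ c c') (hR : RatRad S' u' c') :
    RatRad S u c := by
  obtain ⟨n, m, M', J, hJ⟩ := hR
  obtain ⟨M, hM, -⟩ := H191.HK.pull_mark H864.TS.pull S S' τ M' h0 hτ
  refine ⟨n, m, M, J, fun x => ?_⟩
  rw [← hJ x]
  have e : ∀ k l, bT S u (M.b k) (M.b l) c = bT S' u' (M'.b k) (M'.b l) c' := fun k l =>
    bT_pull h0 hτ hu hu' h (M.closed k) (M.closed l) hc (M'.closed k) (M'.closed l) hc' (hM k)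
      (hM l) pc
  simp only [e]

omit [T2Space E] [Subsingleton Γ] [ContinuousConstSMul Γ E] in
theorem bT_mul (ha : a + 2 ≤ d) (g : Matrix (Fin a) (Fin a) ℂ) (u : Fin S.N → Cm d → Matrix (Fin a) (Fin d) ℂ)
    (x y c : Fin S.N → Cm d → L2 d) :
    bT S (fun i z => g * u i z) x y c = ((‖g.det‖ ^ 2 : ℝ) : ℂ) * bT S u x y c := by
  unfold bT Sheets.int
  rw [Finset.mul_sum]
  refine Finset.sum_congr rfl fun i _ => ?_
  rw [← integral_const_mul]
  refine integral_congr_ae (Filter.Eventually.of_forall fun z => ?_)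
  show W4 (g * u i z) (x i z) (y i z) (c i z) = _
  rw [H399.HKT.W4_mul ha]

omit [T2Space E] [Subsingleton Γ] [ContinuousConstSMul Γ E] in
/-- Change of the basis of the 1-forms. -/
theorem ratRad_mul (ha : a + 2 ≤ d) {g : Matrix (Fin a) (Fin a) ℂ} (hg : g.det ≠ 0)
    {c : Fin S.N → Cm d → L2 d} (hR : RatRad S u c) : RatRad S (fun i z => g * u i z) c := by
  obtain ⟨n, m, M, J, hJ⟩ := hR
  refine ⟨n, m, M, J, fun x => ?_⟩
  rw [← hJ x]
  refine forall_congr' fun l => ?_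
  have h1 : ‖g.det‖ ^ 2 ≠ 0 := pow_ne_zero 2 (norm_ne_zero_iff.2 hg)
  have e : ∑ k, x k * (bT S (fun i z => g * u i z) (M.b k) (M.b l) c).re =
      ‖g.det‖ ^ 2 * ∑ k, x k * (bT S u (M.b k) (M.b l) c).re := by
    rw [Finset.mul_sum]
    refine Finset.sum_congr rfl fun k _ => ?_
    rw [bT_mul ha, Complex.re_ofReal_mul]
    ring
  rw [e, mul_eq_zero]
  exact ⟨fun h => h.resolve_left h1, Or.inr⟩

end

end Vale.Agent.P281.H125.HKT
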