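import Vale.Agent.P281.H511.HKT.Pb
import Vale.Agent.P281.H511.HK.Cls
import Vale.Agent.P281.H842.TS.Wirt
import Vale.Agent.P281.H125.HKT.Rat

/-!
# P281, project T-HKT (helper125): block T4, the metric and the forms along a biholomorphic map
-/

open Set Filter Metric MeasureTheory Vale.Agent.P272.K
open scoped Topology ContDiff ComplexConjugate ComplexOrder

set_option linter.unusedSectionVars false

noncomputable section

namespace Vale.Agent.P281.H125.HKT

open Vale.Agent.P281.H64.TK Vale.Agent.P281.H64.TK.TS Vale.Agent.P281.H864.TS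
open Vale.Agent.P281.H864.K (holCompat_symm holCompat_compat jac_comp jac_id jac_congr)
open Vale.Agent.P281.H399.TS Vale.Agent.P281.H83.HK Vale.Agent.P281.H399.HK
open Vale.Agent.P281.H511.HK (pS holCompat_of hol2_pS eqG eqG_eqv)
open Vale.Agent.P281.H511.HKT (pbU pbU_eq pbU_hol hol1_pS)
open Vale.Agent.P281.H83.HKT (Hol1 GenU)

/-! ### Pull-back of Hermitian matrices -/

section alg
variable {d : ℕ}

/-- the pull-back of a Hermitian matrix -/
def hm (J w : Matrix (Fin d) (Fin d) ℂ) : Matrix (Fin d) (Fin d) ℂ :=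
  J.transpose * w * J.map conj

theorem map_conj_mul (J K : Matrix (Fin d) (Fin d) ℂ) :
    (J * K).map conj = J.map conj * K.map conj := by
  ext a b
  simp only [Matrix.map_apply, Matrix.mul_apply, map_sum, map_mul]

theorem hm_hm (J K w : Matrix (Fin d) (Fin d) ℂ) : hm J (hm K w) = hm (K * J) w := by
  simp only [hm, Matrix.transpose_mul, map_conj_mul, Matrix.mul_assoc]

theorem hm_one (w : Matrix (Fin d) (Fin d) ℂ) : hm 1 w = w := by
  have h1 : (1 : Matrix (Fin d) (Fin d) ℂ).map conj = 1 := by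
    ext a b
    rw [Matrix.map_apply, Matrix.one_apply]
    split_ifs <;> simp
  rw [hm, h1, Matrix.transpose_one, Matrix.one_mul, Matrix.mul_one]

theorem hm_apply (J w : Matrix (Fin d) (Fin d) ℂ) (a b : Fin d) :
    hm J w a b = ∑ y, (∑ x, J x a * w x y) * conj (J y b) := by
  rw [hm, Matrix.mul_apply]
  refine Finset.sum_congr rfl fun y _ => ?_
  rw [Matrix.mul_apply, Matrix.map_apply]
  rfl

theorem hm_pos {J w : Matrix (Fin d) (Fin d) ℂ} (hJ : J.det ≠ 0) (hw : w.PosDef) :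
    (hm J w).PosDef := by
  have h1 : (J.map conj).conjTranspose = J.transpose := by
    ext a b
    simp [Matrix.conjTranspose_apply]
  have h2 : (J.map conj).det = conj J.det := by
    have := (RingHom.map_det (starRingEnd ℂ) J).symm
    exact this
  have h3 : Function.Injective (J.map conj).mulVec := by
    rw [Matrix.mulVec_injective_iff_isUnit, Matrix.isUnit_iff_isUnit_det, h2, isUnit_iff_ne_zero]
    simpa using hJ
  have h4 := hw.conjTranspose_mul_mul_same h3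
  rw [h1] at h4
  exact h4

end alg

/-! ### The derivatives -/

section der
variable {d : ℕ}

theorem dz_comp {φ : Cm d → ℂ} {θ : Cm d → Cm d} {z : Cm d}
    (hφ : DifferentiableAt ℝ φ (θ z)) (hθ : DifferentiableAt ℂ θ z) (k : Fin d) :
    dz k (fun u => φ (θ u)) z = ∑ m, dz m φ (θ z) * H64.TK.jac θ z m k := by
  have h1 : DifferentiableAt ℝ (fun u => conj (φ u)) (θ z) :=
    Complex.conjCLE.differentiableAt.comp _ hφ
  have h2 := H842.TS.dzb_comp h1 hθ k
  have h3 : dz k (fun u => φ (θ u)) z = conj (dzb k (fun u => conj (φ (θ u))) z) := by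
    rw [INT.dzb_conj, Complex.conj_conj]
  rw [h3, h2, map_sum]
  refine Finset.sum_congr rfl fun m _ => ?_
  rw [map_mul, Complex.conj_conj, INT.dzb_conj, Complex.conj_conj]

theorem dzb_hol0 {g : Cm d → ℂ} {z : Cm d} (h : DifferentiableAt ℂ g z) (k : Fin d) :
    dzb k g z = 0 := by
  have h1 : fderiv ℝ g z = (fderiv ℂ g z).restrictScalars ℝ :=
    (h.hasFDerivAt.restrictScalars ℝ).fderiv
  have h3 : (Pi.single k Complex.I : Cm d) = Complex.I • Pi.single k 1 := by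
    rw [← Pi.single_smul, smul_eq_mul, mul_one]
  show (fderiv ℝ g z (Pi.single k 1) + Complex.I * fderiv ℝ g z (Pi.single k Complex.I)) / 2 = 0
  rw [h1]
  show (fderiv ℂ g z (Pi.single k 1) + Complex.I * fderiv ℂ g z (Pi.single k Complex.I)) / 2 = 0
  rw [h3, map_smul, smul_eq_mul, ← mul_assoc, Complex.I_mul_I]
  ring

theorem dz_conj_jac {θ : Cm d → Cm d} {z : Cm d} (h : AnalyticAt ℂ θ z) (k a b : Fin d) :
    dz k (fun u => conj (H64.TK.jac θ u a b)) z = 0 := by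
  rw [INT.dz_conj, dzb_hol0 (differentiableAt_jac h a b), map_zero]

/-- the pull-back of a closed metric is closed -/
theorem dz_hm {θ : Cm d → Cm d} {w : Cm d → Matrix (Fin d) (Fin d) ℂ} {z z' : Cm d}
    (h : AnalyticAt ℂ θ z) (hz : θ z = z')
    (hw : ∀ j k, DifferentiableAt ℝ (fun u => w u j k) z')
    (hc : ∀ j k l, dz l (fun u => w u j k) z' = dz j (fun u => w u l k) z') (j k l : Fin d) :
    dz l (fun u => hm (H64.TK.jac θ u) (w (θ u)) j k) z =
      dz j (fun u => hm (H64.TK.jac θ u) (w (θ u)) l k) z := by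
  subst hz
  have hJ : ∀ a b, DifferentiableAt ℝ (fun u => H64.TK.jac θ u a b) z := fun a b =>
    (H842.TS.smooth_jac h a b).differentiableAt (by simp)
  have hJc : ∀ a b, DifferentiableAt ℝ (fun u => conj (H64.TK.jac θ u a b)) z := fun a b =>
    Complex.conjCLE.differentiableAt.comp z (hJ a b)
  have hwθ : ∀ a b, DifferentiableAt ℝ (fun u => w (θ u) a b) z := fun a b =>
    DifferentiableAt.comp (f := θ) (g := fun u => w u a b) z (hw a b)
      (h.differentiableAt.restrictScalars ℝ)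
  have e : ∀ j l, dz l (fun u => hm (H64.TK.jac θ u) (w (θ u)) j k) z = ∑ y, (∑ x,
      (dz l (fun u => H64.TK.jac θ u x j) z * w (θ z) x y +
        H64.TK.jac θ z x j * ∑ m, dz m (fun u => w u x y) (θ z) * H64.TK.jac θ z m l)) *
          conj (H64.TK.jac θ z y k) := by
    intro j l
    have e1 : (fun u => hm (H64.TK.jac θ u) (w (θ u)) j k) =
        fun u => ∑ y, (∑ x, H64.TK.jac θ u x j * w (θ u) x y) * conj (H64.TK.jac θ u y k) :=
      funext fun u => hm_apply _ _ _ _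
    have h1 : ∀ y, DifferentiableAt ℝ (fun u => ∑ x, H64.TK.jac θ u x j * w (θ u) x y) z := fun y =>
      DifferentiableAt.fun_sum fun x _ => (hJ x j).fun_mul (hwθ x y)
    rw [e1, INT.dz_sum _ fun y _ => (h1 y).fun_mul (hJc y k)]
    refine Finset.sum_congr rfl fun y _ => ?_
    rw [INT.dz_mul (h1 y) (hJc y k), dz_conj_jac h, INT.dz_sum _ fun x _ =>
      (hJ x j).fun_mul (hwθ x y)]
    have h2 : ∀ x, dz l (fun u => H64.TK.jac θ u x j * w (θ u) x y) z =
        dz l (fun u => H64.TK.jac θ u x j) z * w (θ z) x y +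
        H64.TK.jac θ z x j * ∑ m, dz m (fun u => w u x y) (θ z) * H64.TK.jac θ z m l := by
      intro x
      rw [INT.dz_mul (hJ x j) (hwθ x y), dz_comp (φ := fun u => w u x y) (hw x y)
        h.differentiableAt l]
    rw [Finset.sum_congr rfl fun x _ => h2 x]
    ring
  rw [e, e]
  refine Finset.sum_congr rfl fun y _ => ?_
  congr 1
  rw [Finset.sum_add_distrib, Finset.sum_add_distrib]
  congr 1
  · refine Finset.sum_congr rfl fun x _ => ?_
    rw [H842.TS.dz_jac h x j l]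
  · simp only [Finset.mul_sum]
    rw [Finset.sum_comm]
    refine Finset.sum_congr rfl fun m _ => Finset.sum_congr rfl fun x _ => ?_
    rw [hc x y m]
    ring

end der

/-! ### Two manifolds with the same complex structure -/

section same
variable {d : ℕ} {E Γ : Type} [TopologicalSpace E] [Group Γ] [MulAction Γ E]
  {S S' S'' : Sheets d E Γ}
variable {i : Fin S.N} {j j' : Fin S'.N} {k : Fin S''.N} {z z' z'' : Cm d} {θ χ : Cm d → Cm d}
variable [Subsingleton Γ]

theorem chK {w : Fin S.N → Cm d → Matrix (Fin d) (Fin d) ℂ} (hs : Kah S w) {i j : Fin S.N}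
    (hz : z ∈ ball (0 : Cm d) 3) (hz' : z' ∈ ball (0 : Cm d) 3)
    (h : H399.TS.HTr S S i j z z' θ) : w i z = hm (H64.TK.jac θ z) (w j z') :=
  hs.change i j z hz z' hz' 1 θ h.an h.eq (by
    filter_upwards [h.ev] with u hu
    rw [hu, one_smul])

open Classical in
/-- the metric `w` of `S'` on `S` -/
def pbK (S S' : Sheets d E Γ) (w : Fin S'.N → Cm d → Matrix (Fin d) (Fin d) ℂ) (i : Fin S.N)
    (z : Cm d) : Matrix (Fin d) (Fin d) ℂ :=
  if h : ∃ p, Hd S S' i z p then hm (H64.TK.jac h.choose.2.2 z) (w h.choose.1 h.choose.2.1) else 0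

theorem pbK_eq {w : Fin S'.N → Cm d → Matrix (Fin d) (Fin d) ℂ} (hs : Kah S' w)
    (hz' : z' ∈ ball (0 : Cm d) 3) (h : H399.TS.HTr S S' i j z z' θ) :
    pbK S S' w i z = hm (H64.TK.jac θ z) (w j z') := by
  have hex : ∃ p, Hd S S' i z p := ⟨(j, z', θ), hz', h⟩
  rw [pbK, dif_pos hex]
  obtain ⟨h1, h2⟩ := hex.choose_spec
  set q := hex.choose with hq
  obtain ⟨χ, hχ⟩ := exists_htr_self S' q.1 j h1 hz' (by rw [← h2.pt, h.pt])
  rw [chK hs h1 hz' hχ, hm_hm, ← jac_comp' h2 hχ, jac_congr ((h2.comp hχ).uniq h hz')]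

theorem pbK_near {w : Fin S'.N → Cm d → Matrix (Fin d) (Fin d) ℂ} (hs : Kah S' w)
    (hz : z ∈ ball (0 : Cm d) 3) (hz' : z' ∈ ball (0 : Cm d) 3)
    (h : H399.TS.HTr S S' i j z z' θ) :
    pbK S S' w i =ᶠ[𝓝 z] fun u => hm (H64.TK.jac θ u) (w j (θ u)) := by
  filter_upwards [h.near hz hz'] with u hu
  exact pbK_eq hs hu.2.1 hu.2.2

theorem exists_htr2 (hc : HolCompat S S') (i : Fin S.N) (hz : z ∈ ball (0 : Cm d) 3) :
    ∃ j, ∃ z' ∈ ball (0 : Cm d) 3, ∃ θ, H399.TS.HTr S S' i j z z' θ ∧ (H64.TK.jac θ z).det ≠ 0 := by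
  obtain ⟨j, z', h1, h2⟩ := H864.TS.cov S' (S.σ i z)
  obtain ⟨θ, h3, h4, h5, h6⟩ := hc i j z hz z' h1 1 (by rw [one_smul]; exact h2.symm)
  exact ⟨j, z', h1, θ, ⟨h3, h4, by simpa using h6⟩, h5⟩

theorem pbK_kah (hc : HolCompat S S') {w : Fin S'.N → Cm d → Matrix (Fin d) (Fin d) ℂ}
    (hs : Kah S' w) : Kah S (pbK S S' w) where
  smooth i a b := by
    intro z hz
    obtain ⟨j, z', hz', θ, h⟩ := exists_htr' hc i hz
    have h1 : (fun u => pbK S S' w i u a b) =ᶠ[𝓝 z] fun u =>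
        ∑ y, (∑ x, H64.TK.jac θ u x a * w j (θ u) x y) * conj (H64.TK.jac θ u y b) := by
      filter_upwards [pbK_near hs hz hz' h] with u hu
      rw [hu, hm_apply]
    refine (ContDiffAt.congr_of_eventuallyEq ?_ h1).contDiffWithinAt
    have h2 : ∀ x y, ContDiffAt ℝ ∞ (fun u => w j (θ u) x y) z := fun x y =>
      ContDiffAt.comp (f := θ) (g := fun u => w j u x y) z (by
        rw [h.eq]
        exact (hs.smooth j x y).contDiffAt (isOpen_ball.mem_nhds hz'))
        (H842.TS.smooth_comp h.an)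
    exact ContDiffAt.sum fun y _ => ContDiffAt.mul
      (ContDiffAt.sum fun x _ => (H842.TS.smooth_jac h.an x a).mul (h2 x y))
      (Complex.conjCLE.contDiff.contDiffAt.comp z (H842.TS.smooth_jac h.an y b))
  posDef i z hz := by
    obtain ⟨j, z', hz', θ, h, h1⟩ := exists_htr2 hc i hz
    rw [pbK_eq hs hz' h]
    exact hm_pos h1 (hs.posDef j z' hz')
  closed i z hz a b l := by
    obtain ⟨j, z', hz', θ, h⟩ := exists_htr' hc i hz
    have h1 : ∀ l a b, dz l (fun u => pbK S S' w i u a b) z =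
        dz l (fun u => hm (H64.TK.jac θ u) (w j (θ u)) a b) z := fun l a b => by
      refine INT.dz_congr ?_
      filter_upwards [pbK_near hs hz hz' h] with u hu
      rw [hu]
    rw [h1, h1]
    exact dz_hm h.an h.eq (fun a b => ((hs.smooth j a b).contDiffAt
      (isOpen_ball.mem_nhds hz')).differentiableAt (by simp)) (hs.closed j z' hz') a b l
  change i j z hz z' hz' γ θ h1 h2 h3 := by
    have h : H399.TS.HTr S S i j z z' θ := ⟨h1, h2, by
      filter_upwards [h3] with u hu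
      rw [hu, Subsingleton.elim γ 1, one_smul]⟩
    obtain ⟨k, z'', hz'', χ, hχ⟩ := exists_htr' hc j hz'
    have h4 : pbK S S' w i z = hm (H64.TK.jac θ z) (pbK S S' w j z') := by
      rw [pbK_eq hs hz'' (h.comp hχ), pbK_eq hs hz'' hχ, jac_comp' h hχ, hm_hm]
    exact h4

end same

/-! ### The double pull-back -/

section same2
variable {d : ℕ} {E Γ : Type} [TopologicalSpace E] [Group Γ] [MulAction Γ E] [Subsingleton Γ]
  {S S' : Sheets d E Γ} {z : Cm d}

theorem pbK_pbK (hc : HolCompat S S') {w : Fin S.N → Cm d → Matrix (Fin d) (Fin d) ℂ}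
    (hs : Kah S w) {i : Fin S.N} (hz : z ∈ ball (0 : Cm d) 3) :
    pbK S S' (pbK S' S w) i z = w i z := by
  obtain ⟨j, z', hz', θ, h⟩ := exists_htr' hc i hz
  obtain ⟨χ, hχ⟩ := exists_htr (holCompat_symm hc) j i hz' hz h.pt.symm
  rw [pbK_eq (pbK_kah (holCompat_symm hc) hs) hz' h, pbK_eq hs hz hχ, hm_hm, ← jac_comp' h hχ,
    jac_congr ((h.comp hχ).uniq (htr_refl S i z) hz), jac_id, hm_one]

theorem pbU_pbU {a : ℕ} (hc : HolCompat S S') {u : Fin S.N → Cm d → Matrix (Fin a) (Fin d) ℂ}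
    (hs : Hol1 S u) {i : Fin S.N} (hz : z ∈ ball (0 : Cm d) 3) :
    pbU S S' (pbU S' S u) i z = u i z := by
  obtain ⟨j, z', hz', θ, h⟩ := exists_htr' hc i hz
  obtain ⟨χ, hχ⟩ := exists_htr (holCompat_symm hc) j i hz' hz h.pt.symm
  rw [pbU_eq (pbU_hol (holCompat_symm hc) hs) hz' h, pbU_eq hs hz hχ, Matrix.mul_assoc,
    ← jac_comp' h hχ, jac_congr ((h.comp hχ).uniq (htr_refl S i z) hz), jac_id, Matrix.mul_one]

end same2

/-! ### Biholomorphic maps -/

section push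
variable {d a : ℕ} {E Γ : Type} [TopologicalSpace E] [Group Γ] [MulAction Γ E] [Subsingleton Γ]
  {E' Γ' : Type} [TopologicalSpace E'] [Group Γ'] [MulAction Γ' E'] [Subsingleton Γ']
  {S : Sheets d E Γ} {S' : Sheets d E' Γ'}

theorem hol_symm {τ : E ≃ₜ E'} (hτ : H511.TS.Hol S S' τ) : H511.TS.Hol S' S τ.symm := by
  intro j i z' hz' z hz he
  obtain ⟨θ, h1, h2, h3, h4⟩ := holCompat_symm (holCompat_of (Γ := Γ) (Γ' := Γ') hτ) j i z' hz' z
    hz 1 (by rw [one_smul]; exact he)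
  refine ⟨θ, ⟨h1, h2, ?_⟩, h3⟩
  filter_upwards [h4] with u hu
  rw [one_smul] at hu
  exact hu

/-- the transition maps along `τ` -/
theorem htr_pS {τ : E ≃ₜ E'} {i : Fin S.N} {j : Fin S'.N} {z z' : Cm d} {θ : Cm d → Cm d}
    (h : H511.TS.HTr S S' τ i j z z' θ) :
    H399.TS.HTr S (pS (Γ := Γ) S' τ) i j z z' θ := by
  refine ⟨h.1, h.2.1, ?_⟩
  filter_upwards [h.2.2] with u hu
  show S.σ i u = τ.symm (S'.σ j (θ u))
  rw [← hu, τ.symm_apply_apply]

theorem kah_pS {τ : E ≃ₜ E'} {w : Fin S'.N → Cm d → Matrix (Fin d) (Fin d) ℂ} :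
    Kah (pS (Γ := Γ) S' τ) w ↔ Kah S' w := by
  constructor
  · intro h
    refine ⟨h.smooth, h.posDef, h.closed, fun i j z hz z' hz' γ θ h1 h2 h3 =>
      h.change i j z hz z' hz' 1 θ h1 h2 ?_⟩
    filter_upwards [h3] with u hu
    rw [one_smul]
    show τ.symm (S'.σ i u) = τ.symm (S'.σ j (θ u))
    rw [hu, Subsingleton.elim γ 1, one_smul]
  · intro h
    refine ⟨h.smooth, h.posDef, h.closed, fun i j z hz z' hz' γ θ h1 h2 h3 =>
      h.change i j z hz z' hz' 1 θ h1 h2 ?_⟩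
    filter_upwards [h3] with u hu
    rw [Subsingleton.elim γ 1, one_smul] at hu
    rw [one_smul]
    exact τ.symm.injective hu

theorem hol1_pS' {τ : E ≃ₜ E'} {u : Fin S'.N → Cm d → Matrix (Fin a) (Fin d) ℂ}
    (hu : Hol1 (pS (Γ := Γ) S' τ) u) : Hol1 S' u where
  hol := hu.hol
  closed := hu.closed
  change i j z hz z' hz' θ h1 h2 h3 := by
    refine hu.change i j z hz z' hz' θ h1 h2 ?_
    filter_upwards [h3] with u hu
    show τ.symm (S'.σ i u) = τ.symm (S'.σ j (θ u))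
    rw [hu]

/-- **The push-forward of the metric.** -/
theorem kah_push {τ : E ≃ₜ E'} (hτ : H511.TS.Hol S S' τ)
    {w : Fin S.N → Cm d → Matrix (Fin d) (Fin d) ℂ} (hw : Kah S w) :
    ∃ w' : Fin S'.N → Cm d → Matrix (Fin d) (Fin d) ℂ, Kah S' w' ∧
      Pull2 S S' τ (kw w) (kw w') := by
  have hc := holCompat_of (Γ := Γ) (Γ' := Γ') hτ
  have h1 : Kah (pS (Γ := Γ) S' τ) (pbK (pS (Γ := Γ) S' τ) S w) :=
    pbK_kah (holCompat_symm hc) hw
  refine ⟨pbK (pS (Γ := Γ) S' τ) S w, kah_pS.1 h1, H511.HK.pull_kw hτ ?_⟩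
  intro i j z hz z' hz' θ hθ
  rw [← pbK_pbK hc hw hz]
  exact pbK_eq h1 hz' (htr_pS hθ)

/-- **The pull-back of the metric.** -/
theorem kah_pull {τ : E ≃ₜ E'} (hτ : H511.TS.Hol S S' τ)
    {w' : Fin S'.N → Cm d → Matrix (Fin d) (Fin d) ℂ} (hw : Kah S' w') :
    ∃ w : Fin S.N → Cm d → Matrix (Fin d) (Fin d) ℂ, Kah S w ∧
      Pull2 S S' τ (kw w) (kw w') := by
  have hc := holCompat_of (Γ := Γ) (Γ' := Γ') hτ
  have h1 : Kah (pS (Γ := Γ) S' τ) w' := kah_pS.2 hw
  refine ⟨pbK S (pS (Γ := Γ) S' τ) w', pbK_kah hc h1, H511.HK.pull_kw hτ ?_⟩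
  intro i j z hz z' hz' θ hθ
  exact pbK_eq h1 hz' (htr_pS hθ)

/-- The rows along the holomorphic transition maps. -/
def RowH (S : Sheets d E Γ) (S' : Sheets d E' Γ') (τ : E → E')
    (u : Fin S.N → Cm d → Matrix (Fin a) (Fin d) ℂ)
    (u' : Fin S'.N → Cm d → Matrix (Fin a) (Fin d) ℂ) : Prop :=
  ∀ i j, ∀ z ∈ ball (0 : Cm d) 3, ∀ z' ∈ ball (0 : Cm d) 3, ∀ θ,
    H511.TS.HTr S S' τ i j z z' θ → u i z = u' j z' * H64.TK.jac θ z

theorem RowH.row {τ : E → E'} (hτ : H511.TS.Hol S S' τ)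
    {u : Fin S.N → Cm d → Matrix (Fin a) (Fin d) ℂ}
    {u' : Fin S'.N → Cm d → Matrix (Fin a) (Fin d) ℂ} (h : RowH S S' τ u u') :
    Row S S' τ u u' := by
  intro i j z hz z' hz' ψ hψ r v
  obtain ⟨θ, h1, h2⟩ := H511.HK.tr_hTr hτ hz hz' hψ
  rw [h i j z hz z' hz' θ h1, h2]
  show ∑ k, (u' j z' * H64.TK.jac θ z) r k * v k = ∑ k, u' j z' r k * (H64.TK.jac θ z).mulVec v k
  simp only [Matrix.mul_apply, Matrix.mulVec, dotProduct, Finset.sum_mul, Finset.mul_sum]
  rw [Finset.sum_comm]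
  exact Finset.sum_congr rfl fun _ _ => Finset.sum_congr rfl fun _ _ => by ring

/-- the push-forward of 1-forms -/
theorem hol1_push {τ : E ≃ₜ E'} (hτ : H511.TS.Hol S S' τ)
    {u : Fin S.N → Cm d → Matrix (Fin a) (Fin d) ℂ} (hu : Hol1 S u) :
    ∃ u' : Fin S'.N → Cm d → Matrix (Fin a) (Fin d) ℂ, Hol1 S' u' ∧ RowH S S' τ u u' := by
  have hc := holCompat_of (Γ := Γ) (Γ' := Γ') hτ
  have h1 : Hol1 (pS (Γ := Γ) S' τ) (pbU (pS (Γ := Γ) S' τ) S u) :=
    pbU_hol (holCompat_symm hc) hu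
  refine ⟨pbU (pS (Γ := Γ) S' τ) S u, hol1_pS' h1, ?_⟩
  intro i j z hz z' hz' θ hθ
  rw [← pbU_pbU hc hu hz]
  exact pbU_eq h1 hz' (htr_pS hθ)

end push

end Vale.Agent.P281.H125.HKT
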