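import Vale.Agent.P281.H125.HKT.Push

/-!
# P281, project T-HKT (helper125): biholomorphic maps between sheets
-/

open Set Filter Metric MeasureTheory Vale.Agent.P272.K
open scoped Topology ContDiff ComplexConjugate ComplexOrder

noncomputable section

namespace Vale.Agent.P281.H125.HKT

open Vale.Agent.P281.H64.TK Vale.Agent.P281.H64.TK.TS

variable {d : ℕ} {E Γ : Type} [TopologicalSpace E] [Group Γ] [MulAction Γ E] [Subsingleton Γ]
  {E' Γ' : Type} [TopologicalSpace E'] [Group Γ'] [MulAction Γ' E'] [Subsingleton Γ']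

/-- `τ` is biholomorphic. -/
def Bih (S : Sheets d E Γ) (S' : Sheets d E' Γ') (τ : E → E') : Prop :=
  ∀ i j, ∀ z ∈ ball (0 : Cm d) 3, ∀ z' ∈ ball (0 : Cm d) 3, τ (S.σ i z) = S'.σ j z' →
    ∃ θ : Cm d → Cm d, AnalyticAt ℂ θ z ∧ θ z = z' ∧ (H64.TK.jac θ z).det ≠ 0 ∧
      ∀ᶠ u in 𝓝 z, τ (S.σ i u) = S'.σ j (θ u)

theorem bih_iff {S : Sheets d E Γ} {S' : Sheets d E' Γ'} {τ : E → E'} :
    Bih S S' τ ↔ H511.TS.Hol S S' τ := by
  constructor
  · intro h i j z hz z' hz' e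
    obtain ⟨θ, h1, h2, h3, h4⟩ := h i j z hz z' hz' e
    exact ⟨θ, ⟨h1, h2, h4⟩, h3⟩
  · intro h i j z hz z' hz' e
    obtain ⟨θ, ⟨h1, h2, h4⟩, h3⟩ := h i j z hz z' hz' e
    exact ⟨θ, h1, h2, h3, h4⟩

end Vale.Agent.P281.H125.HKT
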