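import Vale.Agent.P281.H864.TS.Pull

/-!
# P281, project T-HKT (helper125): the pull-back of forms by a smooth map of manifolds of any
dimensions (port of helper864's `H864/TS/Pull.lean`)
-/

open Set Filter Metric MeasureTheory Vale.Agent.P272.K
open scoped Topology ContDiff ComplexConjugate ComplexOrder

noncomputable section

namespace Vale.Agent.P281.H125.HKT

open Vale.Agent.P281.H64.TK Vale.Agent.P281.H64.TK.TS

section
variable {d d' d'' : ℕ} {E Γ : Type} [TopologicalSpace E] [Group Γ] [MulAction Γ E]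
variable {E' Γ' : Type} [TopologicalSpace E'] [Group Γ'] [MulAction Γ' E']
variable {E'' Γ'' : Type} [TopologicalSpace E''] [Group Γ''] [MulAction Γ'' E'']

/-- `ψ` is, near `z`, the map `τ` in the sheets `i`, `j`. -/
def Trg (S : Sheets d E Γ) (S' : Sheets d' E' Γ') (τ : E → E') (i : Fin S.N) (j : Fin S'.N)
    (z : Cm d) (z' : Cm d') (ψ : Cm d → Cm d') : Prop :=
  ContDiffAt ℝ ∞ ψ z ∧ ψ z = z' ∧ ∀ᶠ u in 𝓝 z, τ (S.σ i u) = S'.σ j (ψ u)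

/-- `τ` is smooth. -/
def HasTrg (S : Sheets d E Γ) (S' : Sheets d' E' Γ') (τ : E → E') : Prop :=
  ∀ i j, ∀ z ∈ ball (0 : Cm d) 3, ∀ z' ∈ ball (0 : Cm d') 3, τ (S.σ i z) = S'.σ j z' →
    ∃ ψ, Trg S S' τ i j z z' ψ

/-- `α` is the pull-back of `α'` by `τ`. -/
def Pullg (S : Sheets d E Γ) (S' : Sheets d' E' Γ') (τ : E → E') (α : Fin S.N → Cm d → L2 d)
    (α' : Fin S'.N → Cm d' → L2 d') : Prop :=
  ∀ i j, ∀ z ∈ ball (0 : Cm d) 3, ∀ z' ∈ ball (0 : Cm d') 3, ∀ ψ, Trg S S' τ i j z z' ψ →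
    ∀ u v, α i z u v = α' j z' (fderiv ℝ ψ z u) (fderiv ℝ ψ z v)

variable {S : Sheets d E Γ} {S' : Sheets d' E' Γ'} {S'' : Sheets d'' E'' Γ''}

theorem inj' (S : Sheets d E Γ) {i : Fin S.N} {z w : Cm d} (hz : z ∈ ball (0 : Cm d) 3)
    (hw : w ∈ ball (0 : Cm d) 3) (h : S.σ i z = S.σ i w) : z = w :=
  (S.inj i z hz w hw 1 (by rw [one_smul]; exact h)).2

theorem Trg.unique {τ : E → E'} {i : Fin S.N} {j : Fin S'.N} {z : Cm d} {z' : Cm d'}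
    {ψ χ : Cm d → Cm d'}
    (h : Trg S S' τ i j z z' ψ) (h' : Trg S S' τ i j z z' χ) (hz' : z' ∈ ball (0 : Cm d') 3) :
    ψ =ᶠ[𝓝 z] χ := by
  have e1 : ∀ᶠ u in 𝓝 z, ψ u ∈ ball (0 : Cm d') 3 :=
    h.1.continuousAt (isOpen_ball.mem_nhds (by rw [h.2.1]; exact hz'))
  have e2 : ∀ᶠ u in 𝓝 z, χ u ∈ ball (0 : Cm d') 3 :=
    h'.1.continuousAt (isOpen_ball.mem_nhds (by rw [h'.2.1]; exact hz'))
  filter_upwards [e1, e2, h.2.2, h'.2.2] with u a1 a2 a3 a4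
  exact inj' S' a1 a2 (a3.symm.trans a4)

theorem Trg.comp {τ : E → E'} {τ' : E' → E''} {i : Fin S.N} {j : Fin S'.N} {k : Fin S''.N}
    {z : Cm d} {z' : Cm d'} {z'' : Cm d''} {ψ : Cm d → Cm d'} {χ : Cm d' → Cm d''}
    (h : Trg S S' τ i j z z' ψ)
    (h' : Trg S' S'' τ' j k z' z'' χ) : Trg S S'' (τ' ∘ τ) i k z z'' (χ ∘ ψ) := by
  obtain ⟨a1, a2, a3⟩ := h
  obtain ⟨b1, b2, b3⟩ := h'
  refine ⟨ContDiffAt.comp z (by rw [a2]; exact b1) a1, by simp [a2, b2], ?_⟩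
  have : ∀ᶠ u in 𝓝 z, τ' (S'.σ j (ψ u)) = S''.σ k (χ (ψ u)) :=
    a1.continuousAt.eventually (by rw [a2]; exact b3)
  filter_upwards [a3, this] with u h1 h2
  simp only [Function.comp, h1, h2]

theorem hasTrg_id (S : Sheets d E Γ) : HasTrg S S id := H864.TS.hasTr_id S

theorem HasTrg.comp [Subsingleton Γ'] {τ : E → E'} {τ' : E' → E''} (H : HasTrg S S' τ)
    (H' : HasTrg S' S'' τ') : HasTrg S S'' (τ' ∘ τ) := by
  intro i k z hz z'' hz'' e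
  obtain ⟨j, z', h1, h2⟩ := H864.TS.cov S' (τ (S.σ i z))
  obtain ⟨ψ, hψ⟩ := H i j z hz z' h1 h2.symm
  obtain ⟨χ, hχ⟩ := H' j k z' h1 z'' hz'' (by rw [h2]; exact e)
  exact ⟨_, hψ.comp hχ⟩

/-- A transition map is a transition map at the nearby points. -/
theorem Trg.near {τ : E → E'} (H : HasTrg S S' τ) {i : Fin S.N} {j : Fin S'.N} {z : Cm d}
    {z' : Cm d'} {ψ : Cm d → Cm d'} (hz : z ∈ ball (0 : Cm d) 3) (hz' : z' ∈ ball (0 : Cm d') 3)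
    (h : Trg S S' τ i j z z' ψ) :
    ∀ᶠ u in 𝓝 z, u ∈ ball (0 : Cm d) 3 ∧ ψ u ∈ ball (0 : Cm d') 3 ∧
      Trg S S' τ i j u (ψ u) ψ := by
  have e0 : ∀ᶠ u in 𝓝 z, u ∈ ball (0 : Cm d) 3 := isOpen_ball.mem_nhds hz
  have e1 : ∀ᶠ u in 𝓝 z, ψ u ∈ ball (0 : Cm d') 3 :=
    h.1.continuousAt (isOpen_ball.mem_nhds (by rw [h.2.1]; exact hz'))
  filter_upwards [e0, e1.eventually_nhds, h.2.2.eventually_nhds] with u b0 b1 b2
  refine ⟨b0, b1.self_of_nhds, ?_⟩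
  obtain ⟨χ, c1, c2, c3⟩ := H i j u b0 (ψ u) b1.self_of_nhds b2.self_of_nhds
  have e2 : ∀ᶠ w in 𝓝 u, χ w ∈ ball (0 : Cm d') 3 :=
    c1.continuousAt (isOpen_ball.mem_nhds (by rw [c2]; exact b1.self_of_nhds))
  have e3 : ψ =ᶠ[𝓝 u] χ := by
    filter_upwards [b1, b2, c3, e2] with w a1 a2 a3 a4
    exact inj' S' a1 a4 (a2.symm.trans a3)
  exact ⟨c1.congr_of_eventuallyEq e3, rfl, b2⟩

theorem cov [Subsingleton Γ] (S : Sheets d E Γ) (e : E) :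
    ∃ j, ∃ z ∈ ball (0 : Cm d) 3, S.σ j z = e := H864.TS.cov S e

/-! ### Pull-back of 1-forms and 2-forms -/

/-- A choice of a transition map at `z`. -/
def Ch (S : Sheets d E Γ) (S' : Sheets d' E' Γ') (τ : E → E') (i : Fin S.N) (z : Cm d)
    (p : Fin S'.N × Cm d' × (Cm d → Cm d')) : Prop :=
  p.2.1 ∈ ball (0 : Cm d') 3 ∧ Trg S S' τ i p.1 z p.2.1 p.2.2

open Classical in
/-- The pull-back of a 1-form. -/
def pb1 (S : Sheets d E Γ) (S' : Sheets d' E' Γ') (τ : E → E') (β' : Fin S'.N → Cm d' → L1 d')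
    (i : Fin S.N) (z : Cm d) : L1 d :=
  if h : ∃ p, Ch S S' τ i z p then (β' h.choose.1 h.choose.2.1).comp (fderiv ℝ h.choose.2.2 z)
  else 0

open Classical in
/-- The pull-back of a 2-form. -/
def pb2 (S : Sheets d E Γ) (S' : Sheets d' E' Γ') (τ : E → E') (α' : Fin S'.N → Cm d' → L2 d')
    (i : Fin S.N) (z : Cm d) : L2 d :=
  if h : ∃ p, Ch S S' τ i z p then (α' h.choose.1 h.choose.2.1).bilinearComp
    (fderiv ℝ h.choose.2.2 z) (fderiv ℝ h.choose.2.2 z)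
  else 0

/-- The comparison of two transition maps. -/
theorem Trg.two {τ : E → E'} {i : Fin S.N} {j k : Fin S'.N} {z : Cm d} {z' z'' : Cm d'}
    {ψ χ : Cm d → Cm d'} (h : Trg S S' τ i j z z' ψ) (h' : Trg S S' τ i k z z'' χ)
    (hz' : z' ∈ ball (0 : Cm d') 3) (hz'' : z'' ∈ ball (0 : Cm d') 3) :
    ∃ θ, Tr S' S' id j k z' z'' θ ∧ ∀ v, fderiv ℝ χ z v = fderiv ℝ θ z' (fderiv ℝ ψ z v) := by
  have e1 : τ (S.σ i z) = S'.σ j z' := by rw [h.2.2.self_of_nhds, h.2.1]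
  have e2 : τ (S.σ i z) = S'.σ k z'' := by rw [h'.2.2.self_of_nhds, h'.2.1]
  obtain ⟨θ, hθ⟩ := hasTrg_id S' j k z' hz' z'' hz'' (by simp [← e1, ← e2])
  refine ⟨θ, hθ, fun v => ?_⟩
  have h3 : Trg S S' τ i k z z'' (θ ∘ ψ) := by
    have := Trg.comp h hθ
    rwa [Function.id_comp] at this
  have e := (Trg.unique h' h3 hz'').fderiv_eq (𝕜 := ℝ)
  rw [e, fderiv_comp z (by rw [h.2.1]; exact hθ.1.differentiableAt (by simp))
    (h.1.differentiableAt (by simp)), h.2.1]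
  rfl

theorem pb1_eq {τ : E → E'} {V' : Set E'} {β' : Fin S'.N → Cm d' → L1 d'} (hβ : F1On S' V' β')
    {i : Fin S.N} {j : Fin S'.N} {z : Cm d} {z' : Cm d'} {ψ : Cm d → Cm d'}
    (hz' : z' ∈ ball (0 : Cm d') 3)
    (hV : τ (S.σ i z) ∈ V') (h : Trg S S' τ i j z z' ψ) :
    pb1 S S' τ β' i z = (β' j z').comp (fderiv ℝ ψ z) := by
  have hex : ∃ p, Ch S S' τ i z p := ⟨(j, z', ψ), hz', h⟩
  rw [pb1, dif_pos hex]
  obtain ⟨h1, h2⟩ := hex.choose_spec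
  obtain ⟨θ, t1, t2⟩ := Trg.two h2 h h1 hz'
  have e1 : τ (S.σ i z) = S'.σ hex.choose.1 hex.choose.2.1 := by
    rw [h2.2.2.self_of_nhds, h2.2.1]
  ext v
  simp only [ContinuousLinearMap.comp_apply]
  rw [t2 v]
  exact hβ.change _ _ _ h1 _ hz' (by rw [← e1]; exact hV) θ t1 _

theorem pb2_eq {τ : E → E'} {V' : Set E'} {α' : Fin S'.N → Cm d' → L2 d'} (hα : F2On S' V' α')
    {i : Fin S.N} {j : Fin S'.N} {z : Cm d} {z' : Cm d'} {ψ : Cm d → Cm d'}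
    (hz' : z' ∈ ball (0 : Cm d') 3)
    (hV : τ (S.σ i z) ∈ V') (h : Trg S S' τ i j z z' ψ) :
    pb2 S S' τ α' i z = (α' j z').bilinearComp (fderiv ℝ ψ z) (fderiv ℝ ψ z) := by
  have hex : ∃ p, Ch S S' τ i z p := ⟨(j, z', ψ), hz', h⟩
  rw [pb2, dif_pos hex]
  obtain ⟨h1, h2⟩ := hex.choose_spec
  obtain ⟨θ, t1, t2⟩ := Trg.two h2 h h1 hz'
  have e1 : τ (S.σ i z) = S'.σ hex.choose.1 hex.choose.2.1 := by
    rw [h2.2.2.self_of_nhds, h2.2.1]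
  ext u v
  simp only [ContinuousLinearMap.bilinearComp_apply]
  rw [t2 v, t2 u]
  exact hα.change _ _ _ h1 _ hz' (by rw [← e1]; exact hV) θ t1 _ _

theorem near_mem {τ : E → E'} (hτ : Continuous τ) {V' : Set E'} (hV' : IsOpen V') {i : Fin S.N}
    {z : Cm d} (hz : z ∈ ball (0 : Cm d) 3) (hV : τ (S.σ i z) ∈ V') :
    ∀ᶠ u in 𝓝 z, τ (S.σ i u) ∈ V' :=
  (hτ.continuousAt.comp (H864.TS.cont_σ S hz)).eventually (hV'.mem_nhds hV)

theorem pb1_near {τ : E → E'} (hτ : Continuous τ) (H : HasTrg S S' τ) {V' : Set E'}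
    (hV' : IsOpen V') {β' : Fin S'.N → Cm d' → L1 d'} (hβ : F1On S' V' β')
    {i : Fin S.N} {j : Fin S'.N} {z : Cm d} {z' : Cm d'} {ψ : Cm d → Cm d'}
    (hz : z ∈ ball (0 : Cm d) 3) (hz' : z' ∈ ball (0 : Cm d') 3)
    (hV : τ (S.σ i z) ∈ V') (h : Trg S S' τ i j z z' ψ) :
    pb1 S S' τ β' i =ᶠ[𝓝 z] fun u => (β' j (ψ u)).comp (fderiv ℝ ψ u) := by
  filter_upwards [Trg.near H hz hz' h, near_mem hτ hV' hz hV] with u hu hu'
  exact pb1_eq hβ hu.2.1 hu' hu.2.2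

theorem pb2_near {τ : E → E'} (hτ : Continuous τ) (H : HasTrg S S' τ) {V' : Set E'}
    (hV' : IsOpen V') {α' : Fin S'.N → Cm d' → L2 d'} (hα : F2On S' V' α')
    {i : Fin S.N} {j : Fin S'.N} {z : Cm d} {z' : Cm d'} {ψ : Cm d → Cm d'}
    (hz : z ∈ ball (0 : Cm d) 3) (hz' : z' ∈ ball (0 : Cm d') 3)
    (hV : τ (S.σ i z) ∈ V') (h : Trg S S' τ i j z z' ψ) :
    pb2 S S' τ α' i =ᶠ[𝓝 z]
      fun u => (α' j (ψ u)).bilinearComp (fderiv ℝ ψ u) (fderiv ℝ ψ u) := by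
  filter_upwards [Trg.near H hz hz' h, near_mem hτ hV' hz hV] with u hu hu'
  exact pb2_eq hα hu.2.1 hu' hu.2.2

/-- There is a transition map at each point. -/
theorem exTr [Subsingleton Γ'] {τ : E → E'} (H : HasTrg S S' τ) (i : Fin S.N) {z : Cm d}
    (hz : z ∈ ball (0 : Cm d) 3) :
    ∃ j, ∃ z' ∈ ball (0 : Cm d') 3, ∃ ψ, Trg S S' τ i j z z' ψ ∧ τ (S.σ i z) = S'.σ j z' := by
  obtain ⟨j, z', h1, h2⟩ := cov S' (τ (S.σ i z))
  obtain ⟨ψ, hψ⟩ := H i j z hz z' h1 h2.symm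
  exact ⟨j, z', h1, ψ, hψ, h2.symm⟩

/-! ### Derivatives -/

theorem fd_smooth {ψ : Cm d → Cm d'} {z : Cm d} (h : ContDiffAt ℝ ∞ ψ z) :
    ContDiffAt ℝ ∞ (fderiv ℝ ψ) z := h.fderiv_right (by simp)

theorem sm1 {ψ : Cm d → Cm d'} {z : Cm d} {b : Cm d' → L1 d'} (h : ContDiffAt ℝ ∞ ψ z)
    (hb : ContDiffAt ℝ ∞ b (ψ z)) :
    ContDiffAt ℝ ∞ (fun u => (b (ψ u)).comp (fderiv ℝ ψ u)) z :=
  (ContDiffAt.comp z hb h).clm_comp (fd_smooth h)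

theorem sm2 {ψ : Cm d → Cm d'} {z : Cm d} {a : Cm d' → L2 d'} (h : ContDiffAt ℝ ∞ ψ z)
    (ha : ContDiffAt ℝ ∞ a (ψ z)) :
    ContDiffAt ℝ ∞ (fun u => (a (ψ u)).bilinearComp (fderiv ℝ ψ u) (fderiv ℝ ψ u)) z := by
  have h1 : ContDiffAt ℝ ∞ (fun u => (a (ψ u)).comp (fderiv ℝ ψ u)) z :=
    (ContDiffAt.comp z ha h).clm_comp (fd_smooth h)
  have fl : ∀ (f : Cm d → (Cm d →L[ℝ] Cm d' →L[ℝ] ℂ)), ContDiffAt ℝ ∞ f z →
      ContDiffAt ℝ ∞ (fun u => (f u).flip) z := by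
    intro f hf
    exact ContDiffAt.comp (g := ContinuousLinearMap.flipₗᵢ ℝ (Cm d) (Cm d') ℂ) z
      (LinearIsometryEquiv.contDiff (E := Cm d →L[ℝ] Cm d' →L[ℝ] ℂ)
        (F := Cm d' →L[ℝ] Cm d →L[ℝ] ℂ) _).contDiffAt hf
  have fl' : ∀ (f : Cm d → L2 d), ContDiffAt ℝ ∞ f z →
      ContDiffAt ℝ ∞ (fun u => (f u).flip) z := by
    intro f hf
    exact ContDiffAt.comp (g := ContinuousLinearMap.flipₗᵢ ℝ (Cm d) (Cm d) ℂ) z
      (LinearIsometryEquiv.contDiff (E := Cm d →L[ℝ] Cm d →L[ℝ] ℂ)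
        (F := Cm d →L[ℝ] Cm d →L[ℝ] ℂ) _).contDiffAt hf
  exact fl' _ ((fl _ h1).clm_comp (fd_smooth h))

/-- The second derivative. -/
def sd (ψ : Cm d → Cm d') (z u v : Cm d) : Cm d' := fderiv ℝ (fderiv ℝ ψ) z u v

theorem sd_symm {ψ : Cm d → Cm d'} {z : Cm d} (h : ContDiffAt ℝ ∞ ψ z) (u v : Cm d) :
    sd ψ z u v = sd ψ z v u := by
  have := h.isSymmSndFDerivAt (by
    rw [minSmoothness_of_isRCLikeNormedField]
    exact WithTop.coe_le_coe.2 (le_top : (2 : ℕ∞) ≤ ⊤))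
  exact this u v

theorem fd1 {ψ : Cm d → Cm d'} {z : Cm d} {b : Cm d' → L1 d'} (h : ContDiffAt ℝ ∞ ψ z)
    (hb : ContDiffAt ℝ ∞ b (ψ z)) (u v : Cm d) :
    fderiv ℝ (fun u => (b (ψ u)).comp (fderiv ℝ ψ u)) z u v =
      fderiv ℝ b (ψ z) (fderiv ℝ ψ z u) (fderiv ℝ ψ z v) + b (ψ z) (sd ψ z u v) := by
  have h0 : HasFDerivAt ψ (fderiv ℝ ψ z) z := (h.differentiableAt (by simp)).hasFDerivAt
  have h1 : HasFDerivAt b (fderiv ℝ b (ψ z)) (ψ z) := (hb.differentiableAt (by simp)).hasFDerivAt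
  have h2 : HasFDerivAt (fun u => b (ψ u)) ((fderiv ℝ b (ψ z)).comp (fderiv ℝ ψ z)) z :=
    h1.comp z h0
  have h3 : HasFDerivAt (fderiv ℝ ψ) (fderiv ℝ (fderiv ℝ ψ) z) z :=
    ((fd_smooth h).differentiableAt (by simp)).hasFDerivAt
  rw [(h2.clm_comp h3).fderiv]
  simp [sd, add_comm]

theorem fd2 {ψ : Cm d → Cm d'} {z : Cm d} {a : Cm d' → L2 d'} (h : ContDiffAt ℝ ∞ ψ z)
    (ha : ContDiffAt ℝ ∞ a (ψ z)) (u v w : Cm d) :
    fderiv ℝ (fun u => (a (ψ u)).bilinearComp (fderiv ℝ ψ u) (fderiv ℝ ψ u)) z u v w =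
      fderiv ℝ a (ψ z) (fderiv ℝ ψ z u) (fderiv ℝ ψ z v) (fderiv ℝ ψ z w) +
        a (ψ z) (sd ψ z u v) (fderiv ℝ ψ z w) + a (ψ z) (fderiv ℝ ψ z v) (sd ψ z u w) := by
  have h0 : HasFDerivAt ψ (fderiv ℝ ψ z) z := (h.differentiableAt (by simp)).hasFDerivAt
  have h1 : HasFDerivAt a (fderiv ℝ a (ψ z)) (ψ z) := (ha.differentiableAt (by simp)).hasFDerivAt
  have h2 : HasFDerivAt (fun u => a (ψ u)) ((fderiv ℝ a (ψ z)).comp (fderiv ℝ ψ z)) z :=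
    HasFDerivAt.comp (G := L2 d') z h1 h0
  have h3 : HasFDerivAt (fderiv ℝ ψ) (fderiv ℝ (fderiv ℝ ψ) z) z :=
    ((fd_smooth h).differentiableAt (by simp)).hasFDerivAt
  have h4 : HasFDerivAt (fun u => (a (ψ u)).bilinearComp (fderiv ℝ ψ u) (fderiv ℝ ψ u))
      (fderiv ℝ (fun u => (a (ψ u)).bilinearComp (fderiv ℝ ψ u) (fderiv ℝ ψ u)) z) z :=
    ((sm2 h ha).differentiableAt (by simp)).hasFDerivAt
  have hv : HasFDerivAt (fun _ : Cm d => v) (0 : Cm d →L[ℝ] Cm d) z := hasFDerivAt_const v z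
  have hw : HasFDerivAt (fun _ : Cm d => w) (0 : Cm d →L[ℝ] Cm d) z := hasFDerivAt_const w z
  have e1 := (h4.clm_apply hv).clm_apply hw
  have e2 := (h2.clm_apply (h3.clm_apply hv)).clm_apply (h3.clm_apply hw)
  have e3 := congrArg (fun L : Cm d →L[ℝ] ℂ => L u) (e1.unique e2)
  simp at e3
  rw [e3]
  simp [sd]
  ring

/-! ### The pull-back of smooth forms -/

theorem pb1_F1On [Subsingleton Γ'] {τ : E → E'} (hτ : Continuous τ) (H : HasTrg S S' τ)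
    {V' : Set E'} (hV' : IsOpen V') {β' : Fin S'.N → Cm d' → L1 d'} (hβ : F1On S' V' β') :
    F1On S (τ ⁻¹' V') (pb1 S S' τ β') := by
  constructor
  · intro i z hz hV
    obtain ⟨j, z', hz', ψ, hψ, e⟩ := exTr H i hz
    refine ContDiffAt.congr_of_eventuallyEq (sm1 hψ.1 ?_) (pb1_near hτ H hV' hβ hz hz' hV hψ)
    rw [hψ.2.1]
    exact hβ.smooth j z' hz' (by rw [← e]; exact hV)
  · intro i j z hz z' hz' hV ψ hψ v
    obtain ⟨k, z'', hz'', χ, hχ, e⟩ := exTr H j hz'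
    have e0 : S.σ i z = S.σ j z' := by
      have := hψ.2.2.self_of_nhds
      rw [hψ.2.1] at this
      exact this
    have h1 : Trg S S' τ i k z z'' (χ ∘ ψ) := by
      have := Trg.comp (S := S) (S' := S) (τ := id) hψ hχ
      rwa [Function.comp_id] at this
    rw [pb1_eq hβ hz'' hV h1, pb1_eq hβ hz'' (by rw [← e0]; exact hV) hχ,
      fderiv_comp z (by rw [hψ.2.1]; exact hχ.1.differentiableAt (by simp))
      (hψ.1.differentiableAt (by simp)), hψ.2.1]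
    rfl

theorem pb2_F2On [Subsingleton Γ'] {τ : E → E'} (hτ : Continuous τ) (H : HasTrg S S' τ)
    {V' : Set E'} (hV' : IsOpen V') {α' : Fin S'.N → Cm d' → L2 d'} (hα : F2On S' V' α') :
    F2On S (τ ⁻¹' V') (pb2 S S' τ α') := by
  constructor
  · intro i z hz hV
    obtain ⟨j, z', hz', ψ, hψ, e⟩ := exTr H i hz
    refine ContDiffAt.congr_of_eventuallyEq (sm2 hψ.1 ?_) (pb2_near hτ H hV' hα hz hz' hV hψ)
    rw [hψ.2.1]
    exact hα.smooth j z' hz' (by rw [← e]; exact hV)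
  · intro i z hz hV u v
    obtain ⟨j, z', hz', ψ, hψ, e⟩ := exTr H i hz
    rw [pb2_eq hα hz' hV hψ]
    exact hα.alt j z' hz' (by rw [← e]; exact hV) _ _
  · intro i j z hz z' hz' hV ψ hψ u v
    obtain ⟨k, z'', hz'', χ, hχ, e⟩ := exTr H j hz'
    have e0 : S.σ i z = S.σ j z' := by
      have := hψ.2.2.self_of_nhds
      rw [hψ.2.1] at this
      exact this
    have h1 : Trg S S' τ i k z z'' (χ ∘ ψ) := by
      have := Trg.comp (S := S) (S' := S) (τ := id) hψ hχ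
      rwa [Function.comp_id] at this
    rw [pb2_eq hα hz'' hV h1, pb2_eq hα hz'' (by rw [← e0]; exact hV) hχ,
      fderiv_comp z (by rw [hψ.2.1]; exact hχ.1.differentiableAt (by simp))
      (hψ.1.differentiableAt (by simp)), hψ.2.1]
    rfl

theorem pb2_cl2 [Subsingleton Γ'] {τ : E → E'} (hτ : Continuous τ) (H : HasTrg S S' τ)
    {α' : Fin S'.N → Cm d' → L2 d'} (hα : Cl2 S' α') : Cl2 S (pb2 S S' τ α') := by
  have h0 := pb2_F2On hτ H isOpen_univ hα.toF2On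
  rw [preimage_univ] at h0
  refine ⟨h0, ?_⟩
  intro i z hz u v w
  obtain ⟨j, z', hz', ψ, hψ, e⟩ := exTr H i hz
  have hs : ContDiffAt ℝ ∞ (α' j) (ψ z) := by
    rw [hψ.2.1]
    exact hα.smooth j z' hz' (mem_univ _)
  rw [(pb2_near hτ H isOpen_univ hα.toF2On hz hz' (mem_univ _) hψ).fderiv_eq,
    fd2 hψ.1 hs, fd2 hψ.1 hs, fd2 hψ.1 hs, sd_symm hψ.1 w u, sd_symm hψ.1 w v, sd_symm hψ.1 v u,
    hψ.2.1]
  have c := hα.closed j z' hz' (fderiv ℝ ψ z u) (fderiv ℝ ψ z v) (fderiv ℝ ψ z w)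
  have a1 := hα.alt j z' hz' (mem_univ _) (sd ψ z u v) (fderiv ℝ ψ z w)
  have a2 := hα.alt j z' hz' (mem_univ _) (sd ψ z v w) (fderiv ℝ ψ z u)
  have a3 := hα.alt j z' hz' (mem_univ _) (sd ψ z u w) (fderiv ℝ ψ z v)
  linear_combination c + a1 + a2 + a3

theorem pb2_pull {τ : E → E'} {α' : Fin S'.N → Cm d' → L2 d'} (hα : F2On S' univ α') :
    Pullg S S' τ (pb2 S S' τ α') α' := by
  intro i j z hz z' hz' ψ hψ u v
  rw [pb2_eq hα hz' (mem_univ _) hψ]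
  rfl

theorem pb1_IsD1 [Subsingleton Γ'] {τ : E → E'} (hτ : Continuous τ) (H : HasTrg S S' τ)
    {V' : Set E'} (hV' : IsOpen V') {β' : Fin S'.N → Cm d' → L1 d'} (hβ : F1On S' V' β')
    {α : Fin S.N → Cm d → L2 d} {α' : Fin S'.N → Cm d' → L2 d'} (hP : Pullg S S' τ α α')
    (hd : IsD1 S' V' β' α') : IsD1 S (τ ⁻¹' V') (pb1 S S' τ β') α := by
  intro i z hz hV u v
  obtain ⟨j, z', hz', ψ, hψ, e⟩ := exTr H i hz
  have hV2 : S'.σ j z' ∈ V' := by rw [← e]; exact hV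
  have hs : ContDiffAt ℝ ∞ (β' j) (ψ z) := by
    rw [hψ.2.1]
    exact hβ.smooth j z' hz' hV2
  rw [(pb1_near hτ H hV' hβ hz hz' hV hψ).fderiv_eq, fd1 hψ.1 hs, fd1 hψ.1 hs,
    sd_symm hψ.1 v u, hψ.2.1, hP i j z hz z' hz' ψ hψ u v, ← hd j z' hz' hV2]
  ring

theorem near_fun {τ : E → E'} {i : Fin S.N} {j : Fin S'.N} {z : Cm d} {z' : Cm d'}
    {ψ : Cm d → Cm d'} (h : Trg S S' τ i j z z' ψ) (g : E' → ℂ) :
    (fun u => (g ∘ τ) (S.σ i u)) =ᶠ[𝓝 z] fun u => g (S'.σ j (ψ u)) := by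
  filter_upwards [h.2.2] with u hu
  simp only [Function.comp, hu]

theorem pb_SmOn [Subsingleton Γ'] {τ : E → E'} (H : HasTrg S S' τ) {V' : Set E'} {g : E' → ℂ}
    (hg : SmOn S' V' g) : SmOn S (τ ⁻¹' V') (g ∘ τ) := by
  intro i z hz hV
  obtain ⟨j, z', hz', ψ, hψ, e⟩ := exTr H i hz
  refine ContDiffAt.congr_of_eventuallyEq ?_ (near_fun hψ g)
  have h2 := hg j z' hz' (by rw [← e]; exact hV)
  rw [← hψ.2.1] at h2
  exact ContDiffAt.comp (g := fun u => g (S'.σ j u)) z h2 hψ.1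

theorem pb_fd {τ : E → E'} {i : Fin S.N} {j : Fin S'.N} {z : Cm d} {z' : Cm d'}
    {ψ : Cm d → Cm d'}
    (h : Trg S S' τ i j z z' ψ) {g : E' → ℂ} (hg : ContDiffAt ℝ ∞ (fun u => g (S'.σ j u)) z') :
    fderiv ℝ (fun u => (g ∘ τ) (S.σ i u)) z =
      (fderiv ℝ (fun u => g (S'.σ j u)) z').comp (fderiv ℝ ψ z) := by
  rw [(near_fun h g).fderiv_eq]
  have h2 : DifferentiableAt ℝ (fun u => g (S'.σ j u)) (ψ z) := by
    rw [h.2.1]
    exact hg.differentiableAt (by simp)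
  have := fderiv_comp z h2 (h.1.differentiableAt (by simp))
  rw [h.2.1] at this
  exact this

theorem pb_int [Subsingleton Γ'] {τ : E → E'} (hτ : Continuous τ) (H : HasTrg S S' τ)
    {α : Fin S.N → Cm d → L2 d} {α' : Fin S'.N → Cm d' → L2 d'} (hP : Pullg S S' τ α α')
    (hI : IsInt S' α') : IsInt S α := by
  obtain ⟨ι, V, β, g, h1, h2, h3, h4, h5⟩ := hI
  refine ⟨ι, fun a => τ ⁻¹' V a, fun a => pb1 S S' τ (β a), fun a b => g a b ∘ τ,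
    fun a => (h1 a).preimage hτ, fun e => h2 (τ e), fun a => ⟨pb1_F1On hτ H (h1 a) (h3 a).1,
      pb1_IsD1 hτ H (h1 a) (h3 a).1 hP (h3 a).2⟩, ?_, ?_⟩
  · intro a b
    refine ⟨pb_SmOn H (h4 a b).1, ?_⟩
    intro i z hz hV
    obtain ⟨j, z', hz', ψ, hψ, e⟩ := exTr H i hz
    have hV2 : S'.σ j z' ∈ V a ∩ V b := by rw [← e]; exact hV
    rw [pb_fd hψ ((h4 a b).1 j z' hz' hV2), (h4 a b).2 j z' hz' hV2]
    beta_reduce
    rw [pb1_eq (h3 a).1 hz' hV.1 hψ, pb1_eq (h3 b).1 hz' hV.2 hψ]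
    rfl
  · intro a b c e he
    exact h5 a b c (τ e) he

theorem pb_real [Subsingleton Γ'] {τ : E → E'} (H : HasTrg S S' τ)
    {α : Fin S.N → Cm d → L2 d} {α' : Fin S'.N → Cm d' → L2 d'} (hP : Pullg S S' τ α α')
    (hI : Real2 S' α') : Real2 S α := by
  intro i z hz u v
  obtain ⟨j, z', hz', ψ, hψ, e⟩ := exTr H i hz
  rw [hP i j z hz z' hz' ψ hψ]
  exact hI j z' hz' _ _

theorem pb_exact [Subsingleton Γ'] {τ : E → E'} (hτ : Continuous τ) (H : HasTrg S S' τ)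
    {α : Fin S.N → Cm d → L2 d} {α' : Fin S'.N → Cm d' → L2 d'} (hP : Pullg S S' τ α α')
    (hI : Exact S' α') : Exact S α := by
  obtain ⟨β, h1, h2⟩ := hI
  have h3 := pb1_F1On hτ H isOpen_univ h1
  have h4 := pb1_IsD1 hτ H isOpen_univ h1 hP h2
  rw [preimage_univ] at h3 h4
  exact ⟨_, h3, h4⟩

/-- The pull-back is linear. -/
theorem Pullg.sum [Subsingleton Γ'] {τ : E → E'} {α : Fin S.N → Cm d → L2 d}
    {α' : Fin S'.N → Cm d' → L2 d'} {n : ℕ} {b : Fin n → Fin S.N → Cm d → L2 d}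
    {b' : Fin n → Fin S'.N → Cm d' → L2 d'} (h : Pullg S S' τ α α')
    (hb : ∀ k, Pullg S S' τ (b k) (b' k)) (c : Fin n → ℂ) :
    Pullg S S' τ (fun i z => α i z - ∑ k, c k • b k i z)
      (fun i z => α' i z - ∑ k, c k • b' k i z) := by
  intro i j z hz z' hz' ψ hψ u v
  have e := h i j z hz z' hz' ψ hψ u v
  have e' := fun k => hb k i j z hz z' hz' ψ hψ u v
  simp only [ContinuousLinearMap.sub_apply, ContinuousLinearMap.sum_apply,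
    ContinuousLinearMap.smul_apply, e, e']

/-- The pull-back by a composition. -/
theorem Pullg.comp [Subsingleton Γ'] {τ : E → E'} {τ' : E' → E''} (H : HasTrg S S' τ)
    (H' : HasTrg S' S'' τ') {α : Fin S.N → Cm d → L2 d}
    {α' : Fin S'.N → Cm d' → L2 d'} {α'' : Fin S''.N → Cm d'' → L2 d''}
    (h : Pullg S S' τ α α') (h' : Pullg S' S'' τ' α' α'') : Pullg S S'' (τ' ∘ τ) α α'' := by
  intro i k z hz z'' hz'' χ hχ u v
  have e : τ' (τ (S.σ i z)) = S''.σ k z'' := by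
    have := hχ.2.2.self_of_nhds
    rw [hχ.2.1] at this
    exact this
  obtain ⟨j, z', h1, h2⟩ := cov S' (τ (S.σ i z))
  obtain ⟨ψ, hψ⟩ := H i j z hz z' h1 h2.symm
  obtain ⟨ρ, hρ⟩ := H' j k z' h1 z'' hz'' (by rw [h2]; exact e)
  have e1 := (Trg.unique hχ (hψ.comp hρ) hz'').fderiv_eq (𝕜 := ℝ)
  rw [fderiv_comp z (by rw [hψ.2.1]; exact hρ.1.differentiableAt (by simp))
    (hψ.1.differentiableAt (by simp)), hψ.2.1] at e1
  rw [h i j z hz z' h1 ψ hψ, h' j k z' h1 z'' hz'' ρ hρ, e1]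
  rfl

/-- The pull-back is unique. -/
theorem Pullg.uniq [Subsingleton Γ'] {τ : E → E'} (H : HasTrg S S' τ)
    {α β : Fin S.N → Cm d → L2 d} {α' : Fin S'.N → Cm d' → L2 d'}
    (h : Pullg S S' τ α α') (h' : Pullg S S' τ β α') (i : Fin S.N) {z : Cm d}
    (hz : z ∈ ball (0 : Cm d) 3) : α i z = β i z := by
  obtain ⟨j, z', h1, ψ, hψ, -⟩ := exTr H i hz
  ext u v
  rw [h i j z hz z' h1 ψ hψ, h' i j z hz z' h1 ψ hψ]

end

end Vale.Agent.P281.H125.HKT
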