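import Vale.Agent.P281.H125.HKT.Pb
import Vale.Agent.P281.H842.HKT.Fub
import Vale.Agent.P281.H751.HKT.Rs

/-!
# P281, project T-HKT (helper125), P3: slices of forms on a product and the pull-back by the
projection
-/

open Set Filter Metric MeasureTheory Vale.Agent.P272.K
open scoped Topology ContDiff ComplexConjugate ComplexOrder

noncomputable section

namespace Vale.Agent.P281.H125.HKT

open Vale.Agent.P281.H64.TK Vale.Agent.P281.H64.TK.TS
open Vale.Agent.P281.H842.HKT Vale.Agent.P281.H751.HKT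
open Vale.Agent.P281.H83.HK (kw kf Bc)

/-! ### General lemmas -/

section
variable {d d' : ℕ} {E Γ : Type} [TopologicalSpace E] [Group Γ] [MulAction Γ E]
variable {E' Γ' : Type} [TopologicalSpace E'] [Group Γ'] [MulAction Γ' E']
variable {S : Sheets d E Γ} {S' : Sheets d' E' Γ'}

theorem near_eq {α β : Fin S.N → Cm d → L2 d} (h : ∀ i, ∀ z ∈ ball (0 : Cm d) 3, α i z = β i z)
    (i : Fin S.N) {z : Cm d} (hz : z ∈ ball (0 : Cm d) 3) : α i =ᶠ[𝓝 z] β i := by
  filter_upwards [isOpen_ball.mem_nhds hz] with y hy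
  exact h i y hy

theorem cl2_congr {α β : Fin S.N → Cm d → L2 d} (hα : Cl2 S α)
    (h : ∀ i, ∀ z ∈ ball (0 : Cm d) 3, α i z = β i z) : Cl2 S β where
  smooth i z hz hV := (hα.smooth i z hz hV).congr_of_eventuallyEq (near_eq h i hz).symm
  alt i z hz hV u v := by rw [← h i z hz, hα.alt i z hz hV u v]
  change i j z hz z' hz' hV ψ hψ u v := by
    rw [← h i z hz, ← h j z' hz', hα.change i j z hz z' hz' hV ψ hψ u v]
  closed i z hz u v w := by
    rw [← (near_eq h i hz).fderiv_eq]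
    exact hα.closed i z hz u v w

theorem exact_add {α α' : Fin S.N → Cm d → L2 d} (h : Exact S α) (h' : Exact S α') :
    Exact S (fun i z => α i z + α' i z) := by
  have h1 := H594.TS.exact_sub H594.TS.exact_zero h'
  refine H594.TS.exact_congr (H594.TS.exact_sub h h1) fun i z _ => ?_
  show α i z - (0 - α' i z) = α i z + α' i z
  abel

theorem exact_smul (c : ℂ) {α : Fin S.N → Cm d → L2 d} (h : Exact S α) :
    Exact S (fun i z => c • α i z) := by
  obtain ⟨β, h1, h2⟩ := h
  refine ⟨fun i z => c • β i z, ⟨fun i z hz hV => (h1.smooth i z hz hV).const_smul c,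
    fun i j z hz z' hz' hV ψ hψ v => ?_⟩, fun i z hz hV u v => ?_⟩
  · simp only [smul_apply, h1.change i j z hz z' hz' hV ψ hψ v]
  · have e1 : DifferentiableAt ℝ (β i) z :=
      (h1.smooth i z hz (mem_univ _)).differentiableAt (by simp)
    have e2 : fderiv ℝ (fun y => c • β i y) z = c • fderiv ℝ (β i) z :=
      (e1.hasFDerivAt.const_smul c).fderiv
    show fderiv ℝ (fun y => c • β i y) z u v - fderiv ℝ (fun y => c • β i y) z v u =
      c • α i z u v
    rw [e2]
    simp only [smul_apply, smul_eq_mul, ← h2 i z hz hV u v]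
    ring

theorem exact_sum {n : ℕ} (c : Fin n → ℂ) {α : Fin n → Fin S.N → Cm d → L2 d}
    (h : ∀ k, Exact S (α k)) : Exact S (fun i z => ∑ k, c k • α k i z) := by
  classical
  have h1 : ∀ s : Finset (Fin n), Exact S (fun i z => ∑ k ∈ s, c k • α k i z) := by
    intro s
    induction s using Finset.induction_on with
    | empty => simpa using H594.TS.exact_zero (S := S)
    | insert k s hk ih =>
      refine H594.TS.exact_congr (exact_add (exact_smul (c k) (h k)) ih) fun i z _ => ?_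
      rw [Finset.sum_insert hk]
  exact h1 Finset.univ

theorem cl2_sum {n : ℕ} (c : Fin n → ℂ) {b : Fin n → Fin S.N → Cm d → L2 d}
    (h : ∀ k, Cl2 S (b k)) : Cl2 S (fun i z => ∑ k, c k • b k i z) := by
  classical
  have h1 : ∀ s : Finset (Fin n), Cl2 S (fun i z => ∑ k ∈ s, c k • b k i z) := by
    intro s
    induction s using Finset.induction_on with
    | empty => simpa using H740.TS.cl2_zero (S := S)
    | insert k s hk ih =>
      have e1 : (fun i z => ∑ k ∈ insert k s, c k • b k i z) =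
          fun i z => c k • b k i z + ∑ k ∈ s, c k • b k i z := by
        funext i z
        exact Finset.sum_insert hk
      rw [e1]
      exact H740.TS.cl2_add (H740.TS.cl2_smul (c k) (h k)) ih
  exact h1 Finset.univ

theorem cl2_of_pull [Subsingleton Γ'] {τ : E → E'} (hτ : Continuous τ) (H : HasTrg S S' τ)
    {α : Fin S.N → Cm d → L2 d} {α' : Fin S'.N → Cm d' → L2 d'} (hP : Pullg S S' τ α α')
    (hα : Cl2 S' α') : Cl2 S α :=
  cl2_congr (pb2_cl2 hτ H hα) fun i z hz => Pullg.uniq H (pb2_pull hα.toF2On) hP i hz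

end

/-! ### Slices and the projection -/

section
variable {a m : ℕ} {T H Γ Γ' Γ₀ : Type} [TopologicalSpace T] [TopologicalSpace H] [Group Γ]
  [Group Γ'] [Subsingleton Γ] [Subsingleton Γ'] [MulAction Γ T] [MulAction Γ' H] [Group Γ₀]
  [Subsingleton Γ₀] [MulAction Γ₀ (T × H)] {S : Sheets a T Γ} {S' : Sheets m H Γ'}

/-- The slice at the point `t` of the sheet `i` of `T`. -/
def sl (x : Fin (prodS Γ₀ S S').N → Cm (a + m) → L2 (a + m)) (i : Fin S.N) (t : Cm a) :
    Fin S'.N → Cm m → L2 m := fun j y => rs (x (ix i j) (ap t y))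

/-- The slice of a metric. -/
def slw (w : Fin (prodS Γ₀ S S').N → Cm (a + m) → Matrix (Fin (a + m)) (Fin (a + m)) ℂ)
    (i : Fin S.N) (t : Cm a) : Fin S'.N → Cm m → Matrix (Fin m) (Fin m) ℂ :=
  fun j y => (w (ix i j) (ap t y)).submatrix (Fin.natAdd a) (Fin.natAdd a)

/-- The projection to the last `m` coordinates. -/
def prL (a m : ℕ) : Cm (a + m) →L[ℝ] Cm m :=
  ContinuousLinearMap.pi fun k : Fin m => dz (Fin.natAdd a k)

@[simp] theorem prL_apply (z : Cm (a + m)) : prL a m z = p2 z := rfl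

@[simp] theorem prL_inc (y : Cm m) : prL a m (inc a m y) = y := by
  funext k
  simp [prL]

@[simp] theorem p2_inc (y : Cm m) : p2 (inc a m y) = y := by
  funext k
  simp [p2]

theorem ap_eq (t : Cm a) (y : Cm m) : ap t y = ap t 0 + inc a m y := by
  funext k
  refine Fin.addCases (fun k => ?_) (fun k => ?_) k
  · simp [ap]
  · simp [ap]

theorem hasFDerivAt_ap (t : Cm a) (y : Cm m) :
    HasFDerivAt (fun y : Cm m => ap t y) (inc a m) y := by
  have h : (fun y : Cm m => ap t y) = fun y => ap t 0 + inc a m y := funext (ap_eq t)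
  rw [h]
  exact ((inc a m).hasFDerivAt).const_add _

theorem contDiff_ap (t : Cm a) : ContDiff ℝ ∞ (fun y : Cm m => ap t y) := by
  have h : (fun y : Cm m => ap t y) = fun y => ap t 0 + inc a m y := funext (ap_eq t)
  rw [h]
  exact contDiff_const.add (inc a m).contDiff

/-- The pull-back of a 2-form by the projection `T × H → H`. -/
def prx (x : Fin S'.N → Cm m → L2 m) : Fin (prodS Γ₀ S S').N → Cm (a + m) → L2 (a + m) :=
  fun q z => (x (finProdFinEquiv.symm q).2 (p2 z)).bilinearComp (prL a m) (prL a m)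

theorem prx_ix (x : Fin S'.N → Cm m → L2 m) (i : Fin S.N) (j : Fin S'.N) (z : Cm (a + m)) :
    prx (Γ₀ := Γ₀) (S := S) x (ix i j) z =
      (x j (p2 z)).bilinearComp (prL a m) (prL a m) := by
  show (x (finProdFinEquiv.symm (finProdFinEquiv (i, j))).2 (p2 z)).bilinearComp _ _ = _
  rw [Equiv.symm_apply_apply]

/-- The slice of the pull-back. -/
theorem sl_prx (x : Fin S'.N → Cm m → L2 m) (i : Fin S.N) (t : Cm a) :
    sl (prx (Γ₀ := Γ₀) (S := S) x) i t = x := by
  funext j y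
  ext u v
  rw [sl, rs_apply, prx_ix]
  simp

/-! #### The maps -/

/-- The inclusion of the slice. -/
def inT (S : Sheets a T Γ) (i : Fin S.N) (t : Cm a) : H → T × H := fun e => (S.σ i t, e)

theorem inT_cont (i : Fin S.N) (t : Cm a) : Continuous (inT (H := H) S i t) := by
  unfold inT
  fun_prop

theorem inT_tr {i : Fin S.N} {t : Cm a} {j : Fin S'.N} {y : Cm m} :
    Trg S' (prodS Γ₀ S S') (inT S i t) j (ix i j) y (ap t y) (fun y => ap t y) := by
  refine ⟨(contDiff_ap t).contDiffAt, rfl, Filter.Eventually.of_forall fun u => ?_⟩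
  rw [prodS_σ, p1_ap, p2_ap]
  rfl

theorem inT_has (i : Fin S.N) (t : Cm a) : HasTrg S' (prodS Γ₀ S S') (inT S i t) := by
  intro j q z hz z' hz' e
  obtain ⟨i', j', rfl⟩ := ix_surj q
  obtain ⟨h1, h2⟩ := (mem_ball_iff z' 3).1 hz'
  rw [prodS_σ] at e
  have e1 : S.σ i t = S.σ i' (p1 z') := congrArg Prod.fst e
  have e2 : S'.σ j z = S'.σ j' (p2 z') := congrArg Prod.snd e
  obtain ⟨θ, t1, t2, t3⟩ := S'.hol j j' z hz _ h2 1 (by rw [one_smul]; exact e2)
  have t1' : ContDiffAt ℝ ∞ θ z := (t1.contDiffAt (n := ∞)).restrict_scalars ℝ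
  refine ⟨fun u => ap (p1 z') (θ u), ?_, ?_, ?_⟩
  · exact (contDiff_ap (p1 z')).contDiffAt.comp z t1'
  · simp only [t2, ap_p]
  · filter_upwards [t3] with u hu
    rw [prodS_σ, p1_ap, p2_ap, ← e1]
    rw [one_smul] at hu
    show (S.σ i t, S'.σ j u) = _
    rw [hu]

/-- The slice is the pull-back. -/
theorem sl_pull {x : Fin (prodS Γ₀ S S').N → Cm (a + m) → L2 (a + m)}
    (hx : F2On (prodS Γ₀ S S') univ x) (i : Fin S.N) {t : Cm a} (ht : t ∈ ball (0 : Cm a) 3) :
    Pullg S' (prodS Γ₀ S S') (inT S i t) (sl x i t) x := by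
  have h0 : ∀ j, ∀ z ∈ ball (0 : Cm m) 3,
      sl x i t j z = pb2 S' (prodS Γ₀ S S') (inT S i t) x j z := by
    intro j z hz
    rw [pb2_eq hx (ap_mem ht hz) (mem_univ _) (inT_tr (Γ₀ := Γ₀) (i := i) (t := t) (j := j)),
      (hasFDerivAt_ap t z).fderiv]
    rfl
  intro j q z hz z' hz' ψ hψ u v
  rw [h0 j z hz]
  exact pb2_pull hx j q z hz z' hz' ψ hψ u v

/-- **(a)** -/
theorem sl_cl2 {x : Fin (prodS Γ₀ S S').N → Cm (a + m) → L2 (a + m)}
    (hx : Cl2 (prodS Γ₀ S S') x) (i : Fin S.N) {t : Cm a} (ht : t ∈ ball (0 : Cm a) 3) :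
    Cl2 S' (sl x i t) :=
  cl2_of_pull (inT_cont i t) (inT_has i t) (sl_pull hx.toF2On i ht) hx

/-- **(b)** -/
theorem sl_real2 {x : Fin (prodS Γ₀ S S').N → Cm (a + m) → L2 (a + m)}
    (hx : Real2 (prodS Γ₀ S S') x) (i : Fin S.N) {t : Cm a} (ht : t ∈ ball (0 : Cm a) 3) :
    Real2 S' (sl x i t) := fun j y hy u v => hx (ix i j) _ (ap_mem ht hy) _ _

/-- **(c)** -/
theorem sl_int {x : Fin (prodS Γ₀ S S').N → Cm (a + m) → L2 (a + m)}
    (hx : F2On (prodS Γ₀ S S') univ x) (h : IsInt (prodS Γ₀ S S') x) (i : Fin S.N) {t : Cm a}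
    (ht : t ∈ ball (0 : Cm a) 3) : IsInt S' (sl x i t) :=
  pb_int (inT_cont i t) (inT_has i t) (sl_pull hx i ht) h

/-- **(d)** -/
theorem sl_exact {x : Fin (prodS Γ₀ S S').N → Cm (a + m) → L2 (a + m)}
    (hx : F2On (prodS Γ₀ S S') univ x) (h : Exact (prodS Γ₀ S S') x) (i : Fin S.N) {t : Cm a}
    (ht : t ∈ ball (0 : Cm a) 3) : Exact S' (sl x i t) :=
  pb_exact (inT_cont i t) (inT_has i t) (sl_pull hx i ht) h

/-- **(e)** -/
theorem sl_move {x : Fin (prodS Γ₀ S S').N → Cm (a + m) → L2 (a + m)}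
    (hx : F2On (prodS Γ₀ S S') univ x) {i i' : Fin S.N} {t t' : Cm a}
    (ht : t ∈ ball (0 : Cm a) 3) (ht' : t' ∈ ball (0 : Cm a) 3) (h : S.σ i t = S.σ i' t')
    (j : Fin S'.N) {y : Cm m} (hy : y ∈ ball (0 : Cm m) 3) : sl x i t j y = sl x i' t' j y := by
  have e : inT (H := H) S i t = inT S i' t' := by
    funext e
    simp only [inT, h]
  have h1 := sl_pull hx i ht
  have h2 := sl_pull hx i' ht'
  rw [← e] at h2
  exact Pullg.uniq (inT_has i t) h1 h2 j hy

theorem rs_sub_sum {n : ℕ} (x : L2 (a + m)) (c : Fin n → ℂ) (b : Fin n → L2 (a + m)) :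
    rs (x - ∑ k, c k • b k) = rs x - ∑ k, c k • rs (b k) := by
  ext u v
  simp only [rs_apply, sub_apply, sum_apply, smul_apply]

/-- Slices are linear. -/
theorem sl_sub_sum {n : ℕ} (x : Fin (prodS Γ₀ S S').N → Cm (a + m) → L2 (a + m)) (c : Fin n → ℂ)
    (b : Fin n → Fin (prodS Γ₀ S S').N → Cm (a + m) → L2 (a + m)) (i : Fin S.N) (t : Cm a) :
    sl (fun q z => x q z - ∑ k, c k • b k q z) i t =
      fun j y => sl x i t j y - ∑ k, c k • sl (b k) i t j y := by
  funext j y
  exact rs_sub_sum _ _ _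

/-! #### The projection -/

theorem prT (q : Fin (prodS Γ₀ S S').N) (z : Cm (a + m)) :
    Trg (prodS Γ₀ S S') S' (Prod.snd : T × H → H) q (finProdFinEquiv.symm q).2 z (p2 z)
      (prL a m) := by
  refine ⟨(prL a m).contDiff.contDiffAt, rfl, Filter.Eventually.of_forall fun u => rfl⟩

theorem pr_has : HasTrg (prodS Γ₀ S S') S' (Prod.snd : T × H → H) := by
  intro q j z hz z' hz' e
  obtain ⟨h1, h2⟩ := (mem_ball_iff z 3).1 hz
  obtain ⟨θ, hθ⟩ := hasTrg_id S' (finProdFinEquiv.symm q).2 j (p2 z) h2 z' hz' e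
  have h3 := Trg.comp (prT (S := S) (S' := S') q z) hθ
  rw [Function.id_comp] at h3
  exact ⟨_, h3⟩

theorem prx_pull {x : Fin S'.N → Cm m → L2 m} (hx : F2On S' univ x) :
    Pullg (prodS Γ₀ S S') S' (Prod.snd : T × H → H) (prx x) x := by
  have h0 : ∀ q, ∀ z ∈ ball (0 : Cm (a + m)) 3,
      prx (Γ₀ := Γ₀) (S := S) x q z = pb2 (prodS Γ₀ S S') S' (Prod.snd : T × H → H) x q z := by
    intro q z hz
    rw [pb2_eq hx ((mem_ball_iff z 3).1 hz).2 (mem_univ _) (prT q z), (prL a m).fderiv]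
    rfl
  intro q j z hz z' hz' ψ hψ u v
  rw [h0 q z hz]
  exact pb2_pull hx q j z hz z' hz' ψ hψ u v

/-- **(f)** -/
theorem prx_cl2 {x : Fin S'.N → Cm m → L2 m} (hx : Cl2 S' x) :
    Cl2 (prodS Γ₀ S S') (prx x) :=
  cl2_of_pull continuous_snd pr_has (prx_pull hx.toF2On) hx

theorem prx_real2 {x : Fin S'.N → Cm m → L2 m} (hx : Real2 S' x) :
    Real2 (prodS Γ₀ S S') (prx x) :=
  fun q z hz _ _ => hx (finProdFinEquiv.symm q).2 (p2 z) ((mem_ball_iff z 3).1 hz).2 _ _

theorem prx_int {x : Fin S'.N → Cm m → L2 m} (hx : F2On S' univ x) (h : IsInt S' x) :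
    IsInt (prodS Γ₀ S S') (prx x) :=
  pb_int continuous_snd pr_has (prx_pull hx) h

theorem prx_exact {x : Fin S'.N → Cm m → L2 m} (hx : F2On S' univ x) (h : Exact S' x) :
    Exact (prodS Γ₀ S S') (prx x) :=
  pb_exact continuous_snd pr_has (prx_pull hx) h

/-! #### Metrics -/

theorem inc_single (k : Fin m) (c : ℂ) : inc a m (Pi.single k c) = Pi.single (Fin.natAdd a k) c := by
  funext l
  refine Fin.addCases (fun l => ?_) (fun l => ?_) l
  · rw [inc_left, Pi.single_eq_of_ne]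
    intro h
    have := congrArg Fin.val h
    simp at this
    omega
  · rw [inc_right]
    by_cases h : l = k
    · subst h
      rw [Pi.single_eq_same, Pi.single_eq_same]
    · rw [Pi.single_eq_of_ne h, Pi.single_eq_of_ne]
      intro h'
      exact h (Fin.ext (by simpa using congrArg Fin.val h'))

theorem dz_ap {f : Cm (a + m) → ℂ} (t : Cm a) (y : Cm m) (hf : DifferentiableAt ℝ f (ap t y))
    (l : Fin m) : Vale.Agent.P272.K.dz l (fun y => f (ap t y)) y =
      Vale.Agent.P272.K.dz (Fin.natAdd a l) f (ap t y) := by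
  have h : fderiv ℝ (fun y => f (ap t y)) y = (fderiv ℝ f (ap t y)).comp (inc a m) := by
    have := (hf.hasFDerivAt).comp y (hasFDerivAt_ap t y)
    exact this.fderiv
  unfold Vale.Agent.P272.K.dz
  rw [h, ContinuousLinearMap.comp_apply, ContinuousLinearMap.comp_apply, inc_single, inc_single]

theorem sl_kw (w : Fin (prodS Γ₀ S S').N → Cm (a + m) → Matrix (Fin (a + m)) (Fin (a + m)) ℂ)
    (i : Fin S.N) (t : Cm a) : sl (kw w) i t = kw (slw w i t) := by
  funext j y
  exact rs_kf _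

theorem slw_kah {w : Fin (prodS Γ₀ S S').N → Cm (a + m) → Matrix (Fin (a + m)) (Fin (a + m)) ℂ}
    (hw : Kah (prodS Γ₀ S S') w) (i : Fin S.N) {t : Cm a} (ht : t ∈ ball (0 : Cm a) 3) :
    Kah S' (slw w i t) where
  smooth j k l := by
    have h1 := hw.smooth (ix i j) (Fin.natAdd a k) (Fin.natAdd a l)
    exact h1.comp (contDiff_ap t).contDiffOn fun y hy => ap_mem ht hy
  posDef j y hy := (hw.posDef (ix i j) _ (ap_mem ht hy)).submatrix (Fin.natAdd_injective m a)
  closed j y hy k l p := by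
    have hd : ∀ k l, DifferentiableAt ℝ (fun z => w (ix i j) z k l) (ap t y) := fun k l =>
      ((hw.smooth (ix i j) k l).contDiffAt (isOpen_ball.mem_nhds (ap_mem ht hy))).differentiableAt
        (by simp)
    have h1 := dz_ap t y (hd (Fin.natAdd a k) (Fin.natAdd a l)) p
    have h2 := dz_ap t y (hd (Fin.natAdd a p) (Fin.natAdd a l)) k
    have h3 := hw.closed (ix i j) _ (ap_mem ht hy) (Fin.natAdd a k) (Fin.natAdd a l)
      (Fin.natAdd a p)
    exact h1.trans (h3.trans h2.symm)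
  change j j' y hy y' hy' γ θ h1 h2 h3 := by
    have k1 : AnalyticAt ℂ (fun u : Cm (a + m) => p1 u) (ap t y) :=
      ((ContinuousLinearMap.fst ℂ (Cm a) (Cm m)).comp
        (pe a m : Cm (a + m) →L[ℂ] Cm a × Cm m)).analyticAt _
    have k2 : AnalyticAt ℂ (fun u : Cm (a + m) => p2 u) (ap t y) :=
      ((ContinuousLinearMap.snd ℂ (Cm a) (Cm m)).comp
        (pe a m : Cm (a + m) →L[ℂ] Cm a × Cm m)).analyticAt _
    have h1' : AnalyticAt ℂ θ (p2 (ap t y)) := by rw [p2_ap]; exact h1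
    have k3 : AnalyticAt ℂ (fun u : Cm (a + m) => (p1 u, θ (p2 u))) (ap t y) :=
      k1.prod (h1'.fun_comp (f := fun u : Cm (a + m) => p2 u) k2)
    have k4 : AnalyticAt ℂ (fun u : Cm (a + m) => ap (p1 u) (θ (p2 u))) (ap t y) :=
      (((pe a m).symm : Cm a × Cm m →L[ℂ] Cm (a + m)).analyticAt _).fun_comp k3
    have t2 : Tendsto (fun u : Cm (a + m) => p2 u) (𝓝 (ap t y)) (𝓝 y) := by
      have h0 := (continuous_snd.comp (pe a m).continuous).tendsto (ap t y)
      have e : (Prod.snd ∘ pe a m) (ap t y) = y := p2_ap _ _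
      rw [e] at h0
      exact h0
    have h := hw.change (ix i j) (ix i j') (ap t y) (ap_mem ht hy) (ap t y') (ap_mem ht hy') 1
      (fun u => ap (p1 u) (θ (p2 u))) k4 (by simp only [p1_ap, p2_ap, h2]) (by
        filter_upwards [t2.eventually h3] with u hu
        rw [one_smul, prodS_σ, prodS_σ, p1_ap, p2_ap, hu, sm1'])
    have d0 : DifferentiableAt ℂ θ y := h1.differentiableAt
    have eJ : ∀ k : Fin m, fderiv ℂ (fun u : Cm (a + m) => ap (p1 u) (θ (p2 u))) (ap t y)
        (Pi.single (Fin.natAdd a k) 1) = ap 0 (fderiv ℂ θ y (Pi.single k 1)) := by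
      intro k
      have c1 : HasFDerivAt (𝕜 := ℂ) (fun u : Cm (a + m) => (p1 u, p2 u))
          (pe a m : Cm (a + m) →L[ℂ] Cm a × Cm m) (ap t y) :=
        (pe a m : Cm (a + m) →L[ℂ] Cm a × Cm m).hasFDerivAt
      have c2 := c1.fst
      have c3 := c1.snd
      have d0' : HasFDerivAt (𝕜 := ℂ) θ (fderiv ℂ θ y) (p2 (ap t y)) := by
        rw [p2_ap]
        exact d0.hasFDerivAt
      have c4 : HasFDerivAt (𝕜 := ℂ) (fun u : Cm (a + m) => θ (p2 u)) _ (ap t y) :=
        d0'.comp (ap t y) c3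
      have c5 := c2.prodMk c4
      have c6 : HasFDerivAt (𝕜 := ℂ) (fun u : Cm (a + m) => ap (p1 u) (θ (p2 u))) _ (ap t y) :=
        ((pe a m).symm : Cm a × Cm m →L[ℂ] Cm (a + m)).hasFDerivAt.comp (ap t y) c5
      rw [c6.fderiv]
      have s1 : p1 (Pi.single (Fin.natAdd a k) 1 : Cm (a + m)) = (0 : Cm a) := by
        rw [← inc_single]
        funext l
        simp [p1]
      have s2 : p2 (Pi.single (Fin.natAdd a k) 1 : Cm (a + m)) = (Pi.single k 1 : Cm m) := by
        rw [← inc_single, p2_inc]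
      show ap (p1 (Pi.single (Fin.natAdd a k) 1 : Cm (a + m)))
        (fderiv ℂ θ y (p2 (Pi.single (Fin.natAdd a k) 1 : Cm (a + m)))) = _
      rw [s1, s2]
    have j1 : ∀ (l : Fin a) (k : Fin m),
        jac (fun u : Cm (a + m) => ap (p1 u) (θ (p2 u))) (ap t y) (Fin.castAdd m l)
          (Fin.natAdd a k) = 0 := by
      intro l k
      show fderiv ℂ (fun u : Cm (a + m) => ap (p1 u) (θ (p2 u))) (ap t y)
        (Pi.single (Fin.natAdd a k) 1) (Fin.castAdd m l) = 0
      rw [eJ]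
      simp [ap]
    have j2 : ∀ (l k : Fin m),
        jac (fun u : Cm (a + m) => ap (p1 u) (θ (p2 u))) (ap t y) (Fin.natAdd a l)
          (Fin.natAdd a k) = jac θ y l k := by
      intro l k
      show fderiv ℂ (fun u : Cm (a + m) => ap (p1 u) (θ (p2 u))) (ap t y)
        (Pi.single (Fin.natAdd a k) 1) (Fin.natAdd a l) = _
      rw [eJ]
      simp [ap, jac]
    ext k k'
    have e := congrFun (congrFun h (Fin.natAdd a k)) (Fin.natAdd a k')
    simp only [Matrix.mul_apply, Matrix.transpose_apply, Matrix.map_apply, Fin.sum_univ_add, j1,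
      j2, zero_mul, mul_zero, map_zero, Finset.sum_const_zero, zero_add] at e
    simp only [slw, Matrix.submatrix_apply, Matrix.mul_apply, Matrix.transpose_apply,
      Matrix.map_apply]
    exact e

/-! #### Markings -/

/-- **The integer matrix of the restriction to `H`**; it has a right inverse. -/
theorem exists_J {n r : ℕ} (M : Mark2 (prodS Γ₀ S S') n) (M' : Mark2 S' r) (i : Fin S.N)
    {t : Cm a} (ht : t ∈ ball (0 : Cm a) 3) :
    ∃ (J : Matrix (Fin r) (Fin n) ℤ) (J' : Matrix (Fin n) (Fin r) ℤ), J * J' = 1 ∧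
      (∀ k l, M'.cl (sl (M.b k) i t) l = (J l k : ℂ)) ∧
      (∀ k l, M.cl (prx (M'.b l)) k = (J' k l : ℂ)) ∧
      ∀ x, Cl2 (prodS Γ₀ S S') x →
        M'.cl (sl x i t) = (J.map (Int.cast : ℤ → ℂ)).mulVec (M.cl x) := by
  have h1 : ∀ k l, ∃ N : ℤ, M'.cl (sl (M.b k) i t) l = N := fun k l =>
    M'.intcl _ (sl_cl2 (M.closed k) i ht) (sl_int (M.closed k).toF2On (M.int k) i ht) l
  have h2 : ∀ k l, ∃ N : ℤ, M.cl (prx (Γ₀ := Γ₀) (S := S) (M'.b l)) k = N := fun k l =>
    M.intcl _ (prx_cl2 (M'.closed l)) (prx_int (M'.closed l).toF2On (M'.int l)) k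
  choose j hj using h1
  choose j' hj' using h2
  have key : ∀ x, Cl2 (prodS Γ₀ S S') x →
      M'.cl (sl x i t) = ((Matrix.of fun l k => j k l).map (Int.cast : ℤ → ℂ)).mulVec (M.cl x) := by
    intro x hx
    refine H594.TS.cl_eq M' (sl_cl2 hx i ht) ?_
    have e0 : Cl2 (prodS Γ₀ S S') fun q z => x q z - ∑ k, M.cl x k • M.b k q z :=
      H624.TS.cl2_sub hx (cl2_sum (M.cl x) M.closed)
    have e1 := sl_exact e0.toF2On (M.ex x hx) i ht
    rw [sl_sub_sum] at e1
    have e2 : ∀ k, Exact S' fun i' z => sl (M.b k) i t i' z -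
        ∑ l, M'.cl (sl (M.b k) i t) l • M'.b l i' z := fun k =>
      M'.ex _ (sl_cl2 (M.closed k) i ht)
    have e3 := exact_sum (M.cl x) e2
    refine H594.TS.exact_congr (exact_add e1 e3) fun i' z _ => ?_
    ext u v
    simp only [add_apply, sub_apply, sum_apply, smul_apply, smul_eq_mul, Matrix.mulVec,
      dotProduct, Matrix.map_apply, Matrix.of_apply, hj, mul_sub, Finset.sum_sub_distrib,
      Finset.mul_sum, Finset.sum_mul]
    rw [Finset.sum_comm]
    have e4 : ∀ l k, M.cl x k * ((j k l : ℂ) * M'.b l i' z u v) =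
        (j k l : ℂ) * M.cl x k * M'.b l i' z u v := fun l k => by ring
    simp only [e4]
    ring
  refine ⟨Matrix.of fun l k => j k l, Matrix.of fun k l => j' k l, ?_, hj, hj', key⟩
  ext l l'
  have e1 := congrFun (key _ (prx_cl2 (Γ₀ := Γ₀) (S := S) (M'.closed l'))) l
  rw [sl_prx] at e1
  have e2 : M'.cl (M'.b l') = fun l => if l = l' then 1 else 0 := by
    refine H594.TS.cl_eq M' (M'.closed l') (H594.TS.exact_congr H594.TS.exact_zero
      fun i' z _ => ?_)
    have e : ∑ k, (if k = l' then (1 : ℂ) else 0) • M'.b k i' z = M'.b l' i' z := by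
      rw [Finset.sum_eq_single l', if_pos rfl, one_smul]
      · intro b _ hb
        rw [if_neg hb]
        ext u v
        exact zero_mul (M'.b b i' z u v)
      · intro h
        exact absurd (Finset.mem_univ _) h
    rw [e]
    ext u v
    exact (sub_self (M'.b l' i' z u v)).symm
  rw [e2] at e1
  simp only [Matrix.mulVec, dotProduct, Matrix.map_apply, Matrix.of_apply, hj'] at e1
  have e3 : ((∑ k, j k l * j' k l' : ℤ) : ℂ) = if l = l' then 1 else 0 := by
    push_cast
    exact e1.symm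
  rw [Matrix.mul_apply, Matrix.one_apply]
  simp only [Matrix.of_apply]
  by_cases hl : l = l'
  · rw [if_pos hl] at e3 ⊢
    exact_mod_cast e3
  · rw [if_neg hl] at e3 ⊢
    exact_mod_cast e3

end

end Vale.Agent.P281.H125.HKT
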